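import Crest.Agent.N111.Api.FP
import Crest.Agent.N111.Grp.NoInv
import Crest.Agent.N111.D.Cov1

/-! # Row 111: projective POVMs, covariant families, NG and DIST (fill the proofs IN PLACE). -/

set_option autoImplicit false
set_option linter.unusedSectionVars false
set_option linter.unusedVariables false

namespace Crest.Agent.N111

open MeasureTheory Topology Filter Matrix
open scoped InnerProductSpace

variable {K : Type} [NormedAddCommGroup K] [InnerProductSpace ℂ K] [CompleteSpace K]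

/-! Cones, bumps, `POVM.Proj`, `POVM.Sym`, supports of words and `Inc` are in `D/Cov1`. -/

namespace Ind

variable (I : Ind K)

/-- covariant projective POVMs -/
structure Cov (P : POVM V K) : Prop where
  proj : P.Proj
  mem : ∀ f, BM f → P.E f ∈ I.N
  covρ : ∀ f, BM f → Hom0 f → ∀ ν : Γ,
    I.ρ ν * P.E f * I.ρ ν⁻¹ = P.E fun a => f (ac (ι ν⁻¹) a)

/-- covariant families -/
structure Pre (Φ : V → POVM V K) : Prop where
  cov : ∀ x, x ≠ 0 → I.Cov (Φ x)
  covU : ∀ x, x ≠ 0 → ∀ f, BM f → ∀ g, I.U g * (Φ x).E f * I.U g⁻¹ = (Φ (ac g x)).E f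
  scal : ∀ x, x ≠ 0 → ∀ z : ℝ, z ≠ 0 → ∀ f, BM f → (Φ (z • x)).E f = (Φ x).E f

/-- a group element moving `ev 0` to `x` -/
noncomputable def gx (x : V) : G := by
  classical exact if h : x ≠ 0 then (exists_ac_ev h 0).choose else 1

theorem ac_gx {x : V} (h : x ≠ 0) : ac (gx x) (ev 0) = x := by
  rw [gx, dif_pos h]
  exact (exists_ac_ev h 0).choose_spec

/-- the family generated by a POVM at `ev 0` -/
noncomputable def fam (P : POVM V K) (x : V) : POVM V K :=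
  P.conj (I.U (gx x)) (I.U.mem_unitary _).2

variable {I} {Φ : V → POVM V K} {P : POVM V K}

theorem fam_E (x : V) (f : V → ℂ) : (I.fam P x).E f = I.U (gx x) * P.E f * I.U (gx x)⁻¹ := by
  rw [← I.U.star_apply]; rfl
theorem conj_conj (I : Ind K) (g h : G) (T : K →L[ℂ] K) :
    I.U g * (I.U h * T * I.U h⁻¹) * I.U g⁻¹ = I.U (g * h) * T * I.U (g * h)⁻¹ := by
  simp only [_root_.mul_inv_rev, map_mul, mul_assoc]
theorem commute_of_conj {g : G} {T : K →L[ℂ] K} (h : I.U g * T * I.U g⁻¹ = T) :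
    Commute T (I.U g) := by
  have := congrArg (· * I.U g) h
  simp only [mul_assoc, URep.inv_mul_self, mul_one] at this
  exact this.symm
theorem Cov.conj (h : I.Cov P) (g : G) : I.Cov (P.conj (I.U g) (I.U.mem_unitary _).2) := by
  have e : ∀ f, (P.conj (I.U g) (I.U.mem_unitary _).2).E f = I.U g * P.E f * I.U g⁻¹ := fun f => by
    rw [← I.U.star_apply]; rfl
  refine ⟨h.proj.conj _ _, fun f hf => ?_, fun f hf h0 ν => ?_⟩
  · rw [e]; exact conj_N (h.mem f hf) g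
  · rw [e, e, ← h.covρ f hf h0 ν]
    simp only [← mul_assoc]
    rw [← (I.Uρ g ν).eq]
    simp only [mul_assoc]
    rw [(I.Uρ g⁻¹ ν⁻¹).eq]
theorem Cov.pre (h : I.Cov P) (hinv : ∀ (q : G) (z : ℝ), ac q (ev 0) = z • ev 0 → ∀ f, BM f →
    I.U q * P.E f * I.U q⁻¹ = P.E f) :
    I.Pre (I.fam P) ∧ ∀ f, BM f → (I.fam P (ev 0)).E f = P.E f := by
  have key : ∀ (g g' : G) (z : ℝ), ac g (ev 0) = z • ac g' (ev 0) → ∀ f, BM f →
      I.U g * P.E f * I.U g⁻¹ = I.U g' * P.E f * I.U g'⁻¹ := fun g g' z e f hf => by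
    have h1 := hinv (g'⁻¹ * g) z (by rw [ac_mul, e, ac_smul, ac_inv_ac]) f hf
    conv_rhs => rw [← h1, conj_conj, mul_inv_cancel_left]
  refine ⟨⟨fun x _ => h.conj _, fun x hx f hf g => ?_, fun x hx z hz f hf => ?_⟩, fun f hf => ?_⟩
  · rw [fam_E, fam_E, conj_conj]
    exact key _ _ 1 (by rw [ac_mul, ac_gx hx, ac_gx (ac_ne_zero g hx), one_smul]) f hf
  · rw [fam_E, fam_E]
    exact key _ _ z (by rw [ac_gx hx, ac_gx (smul_ne_zero hz hx)]) f hf
  · rw [fam_E]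
    exact hinv _ 1 (by rw [ac_gx (ev_ne_zero 0), one_smul]) f hf
theorem Pre.commute (h : I.Pre Φ) {x : V} (hx : x ≠ 0) {q : G} {z : ℝ} (hq : ac q x = z • x)
    {f : V → ℂ} (hf : BM f) : Commute ((Φ x).E f) (I.U q) := by
  have hz : z ≠ 0 := fun h0 => ac_ne_zero q hx (by rw [hq, h0, zero_smul])
  exact commute_of_conj (by rw [h.covU x hx f hf, hq, h.scal x hx z hz f hf])
theorem IsPro.proj (h : I.IsPro Φ) (x : V) : (Φ x).Proj := ⟨h.conc x, h.zero x⟩
theorem IsPro.mem (h : I.IsPro Φ) {x : V} (hx : x ≠ 0) {f : V → ℂ} (hf : BM f) :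
    (Φ x).E f ∈ I.N := by
  have h0 : (Φ (ev 0)).E f ∈ I.N := I.mem_N.2 fun a ha =>
    h.gen a (fun T hT => I.mem_N.1 (limSet_N hT) a ha) f hf
  have h1 := conj_N h0 (gx x)
  rwa [h.covU _ (ev_ne_zero 0) f hf, ac_gx hx] at h1
theorem IsPro.pre (h : I.IsPro Φ) : I.Pre Φ :=
  ⟨fun x hx => ⟨h.proj x, fun _ hf => h.mem hx hf, h.covρ x hx⟩, h.covU, h.scal⟩

/-- the weight `a i ^ 2 / a ⬝ a` -/
noncomputable def wv (i : Fin 3) (a : V) : ℝ := wt i (vecMulVec a a)

theorem wv_eq (i : Fin 3) (a : V) : wv i a = a i * a i / (a ⬝ᵥ a) := by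
  rw [wv, wt, trace_vecMulVec, vecMulVec_apply]

theorem wv_mem (i : Fin 3) (a : V) : 0 ≤ wv i a ∧ wv i a ≤ 1 := by
  have h1 : a i * a i ≤ a ⬝ᵥ a :=
    Finset.single_le_sum (f := fun k => a k * a k) (fun k _ => mul_self_nonneg _) (Finset.mem_univ i)
  have h2 := mul_self_nonneg (a i)
  rw [wv_eq]
  exact ⟨div_nonneg h2 (h2.trans h1), div_le_one_of_le₀ h1 (h2.trans h1)⟩

theorem bm_wv (i : Fin 3) : BM fun a => (wv i a : ℂ) := by
  refine BM.ofReal (C := 1) ?_ fun a => abs_le.2 ⟨by linarith [(wv_mem i a).1], (wv_mem i a).2⟩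
  have : wv i = fun a : V => a i * a i / (a 0 * a 0 + a 1 * a 1 + a 2 * a 2) := by
    funext a; rw [wv_eq, dotProduct, Fin.sum_univ_three]
  rw [this]
  fun_prop

theorem hom0_wv (i : Fin 3) : Hom0 fun a => (wv i a : ℂ) := fun z hz a => by
  have : wv i (z • a) = wv i a := by
    rw [wv_eq, wv_eq, smul_dotProduct, dotProduct_smul, Pi.smul_apply, smul_eq_mul, smul_eq_mul,
      smul_eq_mul, show z * a i * (z * a i) = z * (z * (a i * a i)) by ring,
      mul_div_mul_left _ _ hz, mul_div_mul_left _ _ hz]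
  simp only [this]

/-- **NG**: no covariant POVM commutes with the whole group -/
theorem Cov.ng (h : I.Cov P) (hU : ∀ f, BM f → Hom0 f → ∀ g, Commute (P.E f) (I.U g)) :
    False := by
  obtain ⟨ω, h1, h2, h3⟩ := I.trk
  have b : ∀ (i : Fin 3) (g : G), BM fun a => (wv i (ac g a) : ℂ) := fun i g =>
    (bm_wv i).comp (continuous_ac g).measurable
  have inv : ∀ (i : Fin 3) (ν : Γ),
      ω (P.E fun a => (wv i (ac (ι ν) a) : ℂ)) = ω (P.E fun a => (wv i a : ℂ)) := fun i ν => by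
    have e := h.covρ _ (bm_wv i) (hom0_wv i) ν⁻¹
    rw [← h3 _ (h.mem _ (bm_wv i)) (hU _ (bm_wv i) (hom0_wv i)) ν⁻¹, e, inv_inv]
  have a1 : ∀ i : Fin 3, 4 * (ω (P.E fun a => (wv i a : ℂ))).re ≤ 13 / 10 := fun i => by
    set g : Fin 4 → Γ := fun k => N111.tz (NoInv.succ_ne i) (6 * (k : ℕ)) with hg
    have e1 : P.E (fun a => ((∑ k, wv i (ac (ι (g k)) a) : ℝ) : ℂ))
        = ∑ k, P.E fun a => (wv i (ac (ι (g k)) a) : ℂ) := by
      rw [← P.E_sum _ fun k _ => b i _]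
      simp only [Complex.ofReal_sum]
    have e2 := P.E_mono (u := fun a => ∑ k, wv i (ac (ι (g k)) a)) (w := fun _ => 13 / 10)
      (by simpa only [Complex.ofReal_sum] using BM.sum Finset.univ fun k _ => b i (ι (g k)))
      (BM.const _) fun a => by
        refine le_trans (le_of_eq (Finset.sum_congr rfl fun k _ => ?_))
          (sum_wt_cj_le (psd_vecMulVec a) i)
        rw [cj_vecMulVec, hg, ι_tz]
        push_cast
        rfl
    have e3 := h2 _ (sub_nonneg.2 e2)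
    rw [e1, P.E_const, map_sub, map_smul, h1, map_sum] at e3
    simp only [inv, Finset.sum_const, Finset.card_univ, Fintype.card_fin] at e3
    simp at e3
    linarith
  have a2 : ∑ i, P.E (fun a => (wv i a : ℂ)) = 1 := by
    rw [← P.E_sum _ fun i _ => bm_wv i, ← P.E_one]
    refine P.E_congr_of_null (measurableSet_singleton 0) h.proj.zero
      (BM.sum _ fun i _ => bm_wv i) BM.one fun a ha => ?_
    rw [← Complex.ofReal_sum]
    simp only [wv]
    rw [sum_wt (trace_vecMulVec_ne ha), Complex.ofReal_one]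
  have a3 := congrArg (fun T => (ω T).re) a2
  simp only [Fin.sum_univ_three, map_add, Complex.add_re, h1, Complex.one_re] at a3
  linarith [a1 0, a1 1, a1 2]
theorem ne_zero_of_cross {x x' : V} (hx : x ⨯₃ x' ≠ 0) : x ≠ 0 ∧ x' ≠ 0 :=
  ⟨by rintro rfl; simp at hx, by rintro rfl; simp at hx⟩
theorem ac_tv_ev {i k l : Fin 3} (h : i ≠ k) (hl : k ≠ l) (b : ℝ) :
    ac (tv h b) (ev l) = (1 : ℝ) • ev l := by
  rw [ac_tv]; simp [ev, hl]
/-- conjugation to the standard pair -/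
theorem Pre.std (h : I.Pre Φ) {x x' : V} (hx : x ⨯₃ x' ≠ 0) : ∃ g : G, ∀ f, BM f →
    (Φ (ev 0)).E f - (Φ (ev 1)).E f = I.U g⁻¹ * ((Φ x).E f - (Φ x').E f) * I.U g := by
  obtain ⟨g, h0, h1⟩ := exists_ac_pair hx
  refine ⟨g, fun f hf => ?_⟩
  rw [← h0, ← h1, ← h.covU _ (ev_ne_zero 0) f hf, ← h.covU _ (ev_ne_zero 1) f hf, ← sub_mul,
    ← mul_sub]
  simp only [← mul_assoc, URep.inv_mul_self, one_mul]
  simp only [mul_assoc, URep.inv_mul_self, mul_one]
theorem Pre.dist01 (h : I.Pre Φ)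
    (e : ∀ f, BM f → Hom0 f → (Φ (ev 0)).E f = (Φ (ev 1)).E f) : False := by
  refine (h.cov _ (ev_ne_zero 0)).ng fun f hf h0 g => ?_
  refine tv_induction (fun g => Commute ((Φ (ev 0)).E f) (I.U g)) (fun i k hik b => ?_)
    (fun g g' hg hg' => by simpa only [map_mul] using hg.mul_right hg') g
  by_cases hk : k = 0
  · rw [e f hf h0]
    exact h.commute (ev_ne_zero 1) (ac_tv_ev hik (by rw [hk]; decide) b) hf
  · exact h.commute (ev_ne_zero 0) (ac_tv_ev hik hk b) hf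
/-- **DIST** -/
theorem Pre.dist (h : I.Pre Φ) {x x' : V} (hx : x ⨯₃ x' ≠ 0)
    (e : ∀ f, BM f → Hom0 f → (Φ x).E f = (Φ x').E f) : False := by
  obtain ⟨g, hg⟩ := h.std hx
  exact h.dist01 fun f hf h0 => sub_eq_zero.1 (by rw [hg f hf, e f hf h0]; simp)
theorem Pre.eq_zero_of_sub (h : I.Pre Φ) {x x' : V} (hx : x ⨯₃ x' ≠ 0) {T : K →L[ℂ] K}
    (e : ∀ f, BM f → Hom0 f → ((Φ x).E f - (Φ x').E f) * T = 0) : T = 0 := by
  obtain ⟨g, hg⟩ := h.std hx
  have c0 := h.cov _ (ev_ne_zero 0)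
  have c1 := h.cov _ (ev_ne_zero 1)
  have key := I.kernel_lemma
    (𝒴 := {Y | ∃ f, BM f ∧ Hom0 f ∧ Y = (Φ (ev 0)).E f - (Φ (ev 1)).E f})
    (by rintro _ ⟨f, hf, -, rfl⟩; exact sub_N (c0.mem f hf) (c1.mem f hf))
    (by
      rintro _ ⟨f, hf, h0, rfl⟩ μ
      refine ⟨_, ⟨_, hf.comp (continuous_ac (ι μ⁻¹⁻¹)).measurable, h0.ac _, rfl⟩, ?_⟩
      rw [← c0.covρ f hf h0 μ⁻¹, ← c1.covρ f hf h0 μ⁻¹, ← sub_mul, ← mul_sub, inv_inv]
      simp only [← mul_assoc, URep.mul_inv_self, one_mul])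
    (show (0 : Fin 3) ≠ 2 by decide)
    (by
      rintro _ ⟨f, hf, -, rfl⟩ b
      exact (h.commute (ev_ne_zero 0) (ac_tv_ev _ (by decide) b) hf).sub_left
        (h.commute (ev_ne_zero 1) (ac_tv_ev _ (by decide) b) hf))
    (T := I.U g⁻¹ * T)
    (by
      rintro _ ⟨f, hf, h0, rfl⟩
      rw [hg f hf, mul_assoc, ← mul_assoc (I.U g), URep.mul_inv_self, one_mul, mul_assoc,
        e f hf h0, mul_zero])
  rcases key with k | k
  · have := congrArg (I.U g * ·) k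
    simpa only [← mul_assoc, URep.mul_inv_self, one_mul, mul_zero] using this
  · exact (h.dist01 fun f hf h0 => sub_eq_zero.1 (k _ ⟨f, hf, h0, rfl⟩)).elim

end Ind

end Crest.Agent.N111
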