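import Crest.Agent.N111.D.Cov

/-! # Row 111: limits along the flow; the incidence lemma (fill the proofs IN PLACE). -/

set_option autoImplicit false
set_option linter.unusedSectionVars false
set_option linter.unusedVariables false

namespace Crest.Agent.N111

open MeasureTheory Topology Filter Matrix
open scoped InnerProductSpace

variable {K : Type} [NormedAddCommGroup K] [InnerProductSpace ℂ K] [CompleteSpace K]

namespace Ind

variable {I I' : Ind K} {L : ℕ → ℝ} {P Gm : POVM V K} {l : Filter ℕ}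

theorem dinc_sep {i : Fin 3} (hi : (0 : Fin 3) ≠ i) {δ : ℝ} (hδ : 0 < δ) (R : ℝ) (n : ℕ) :
    ∀ᶠ k : ℕ in atTop, ∀ a b : Fin n, a ≠ b →
      R < nm ((tv hi ((a : ℕ) * δ) * al k)⁻¹ * (tv hi ((b : ℕ) * δ) * al k)) := by
  have h1 : Tendsto (fun k : ℕ => Real.exp (3 * (k : ℝ)) * δ) atTop atTop :=
    (Real.tendsto_exp_atTop.comp
      (tendsto_natCast_atTop_atTop.const_mul_atTop (by norm_num))).atTop_mul_const hδ
  filter_upwards [h1.eventually_gt_atTop R] with k hk a b hab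
  have e : (tv hi ((a : ℕ) * δ) * al k)⁻¹ * (tv hi ((b : ℕ) * δ) * al k)
      = al (-k) * tv hi ((((b : ℕ) : ℝ) - (a : ℕ)) * δ) * (al (-k))⁻¹ := by
    rw [al_neg, inv_inv, _root_.mul_inv_rev, tv_inv, sub_mul, sub_eq_neg_add, tv_add]
    simp only [mul_assoc]
  have e2 : dgl (-2 * -(k : ℝ)) (-k) 0 - dgl (-2 * -(k : ℝ)) (-k) i = 3 * k := by
    fin_cases i
    · exact absurd rfl hi
    · simp [dgl]; ring
    · simp [dgl]; ring
  rw [e, al, dg_conj_tv, e2]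
  refine hk.trans_le (le_trans ?_ (abs_le_nm _ 0 i))
  rw [tv_apply, if_neg hi, if_pos ⟨rfl, rfl⟩, zero_add, abs_mul, abs_mul, abs_of_pos hδ,
    abs_of_pos (Real.exp_pos _)]
  have h2 : (1 : ℝ) ≤ |((b : ℕ) : ℝ) - (a : ℕ)| := by
    have : ((b : ℕ) : ℤ) - (a : ℕ) ≠ 0 := fun h => hab (Fin.ext (by omega))
    exact_mod_cast Int.one_le_abs this
  gcongr
  exact le_mul_of_one_le_left hδ.le h2

/-- the overlap estimate -/
theorem dinc_overlap {f h : V → ℂ} {Cf Ch : ℝ} (hCf : ∀ a, ‖f a‖ ≤ Cf) (hCh : ∀ a, ‖h a‖ ≤ Ch)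
    {θ : ℝ} (hθ : 0 < θ)
    (hni : ∀ a b, f a ≠ 0 → h b ≠ 0 → θ * (‖a‖ * ‖b‖) ≤ |a ⬝ᵥ b|) (R : ℝ) :
    ∃ D : ℝ, 0 ≤ D ∧ ∀ (L : ℝ) (S : Finset Γ), (∀ μ ∈ S, μ ∈ Sh L R) → ∀ b : V,
      ∑ μ ∈ S, ‖f (pt μ) * (ic {0}ᶜ b * h (ac (ι (dl μ)) b))‖ ^ 2 ≤ D := by
  classical
  obtain ⟨N, hN⟩ := overlap R (Real.exp R / θ)
  refine ⟨N * (Cf * Ch) ^ 2, by positivity, fun L S hS b => ?_⟩
  by_cases hb : b = 0
  · simp only [hb, ic_of_notMem (show (0 : V) ∉ ({0}ᶜ : Set V) by simp), zero_mul, mul_zero,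
      norm_zero, ne_eq, OfNat.ofNat_ne_zero, not_false_eq_true, zero_pow, Finset.sum_const_zero]
    positivity
  simp only [ic_of_mem (show b ∈ ({0}ᶜ : Set V) from hb), one_mul]
  rw [← Finset.sum_filter_of_ne (p := fun μ => f (pt μ) ≠ 0 ∧ h (ac (ι (dl μ)) b) ≠ 0)
    fun μ _ hμ => by
      rwa [ne_eq, pow_eq_zero_iff two_ne_zero, norm_eq_zero, mul_eq_zero, not_or] at hμ]
  refine (Finset.sum_le_card_nsmul _ _ ((Cf * Ch) ^ 2) fun μ _ => ?_).trans ?_
  · rw [norm_mul]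
    exact pow_le_pow_left₀ (by positivity)
      (mul_le_mul (hCf _) (hCh _) (norm_nonneg _) ((norm_nonneg _).trans (hCf 0))) 2
  · rw [nsmul_eq_mul]
    refine mul_le_mul_of_nonneg_right (Nat.cast_le.2 (hN L b hb _ fun μ hμ => ?_)) (sq_nonneg _)
    obtain ⟨h1, h2, h3⟩ := Finset.mem_filter.1 hμ
    refine ⟨hS μ h1, norm_ac_dl_le hθ (hS μ h1) ?_⟩
    rw [mul_comm ‖_‖, dotProduct_comm]
    exact hni _ _ h2 h3

/-- moving a covariant dual POVM through a row -/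
theorem dinc_row (hd : I.IsDual I') (hG : I'.Cov Gm) {h : V → ℂ} (hh : BM h) (hh0 : Hom0 h)
    (μ : Γ) (c : ℂ) (v : K) : c • I.j (I.ρ μ⁻¹ (Gm.E h v))
      = I.j ((Gm.E (fun b => c * (ic {0}ᶜ b * h (ac (ι (dl μ)) b))) * I.ρ μ⁻¹) v) := by
  have h1 := hG.covρ h hh hh0 (dl μ⁻¹)
  rw [hd.ρ_eq, hd.ρ_eq, ← map_inv, inv_inv, dl_dl, dl_dl] at h1
  have hb : BM fun a => h (ac (ι (dl μ)) a) := hh.comp (measurable_ac _)
  rw [Gm.E_smul c ((BM.ic (measurableSet_singleton 0).compl).mul hb), ← hG.proj.sym.cut hb, ← h1]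
  simp only [mul_apply_eq_comp, _root_.smul_apply, map_smul,
    URep.apply_inv_apply]

/-- the Bessel type estimate along a separated family -/
theorem dinc_sum (hd : I.IsDual I') (hG : I'.Cov Gm) {f h : V → ℂ} (hf : BM f) (hh : BM h)
    (hh0 : Hom0 h) {D B : ℝ} (hB : 0 ≤ B) (S : Finset Γ)
    (hD : ∀ b : V, ∑ μ ∈ S, ‖f (pt μ) * (ic {0}ᶜ b * h (ac (ι (dl μ)) b))‖ ^ 2 ≤ D)
    {n : ℕ} (v : Fin n → K) (hv : ∀ Y ∈ I.N, ∑ a, ‖I.j (Y (v a))‖ ^ 2 ≤ B * ‖star Y I.ξ‖ ^ 2) :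
    ∑ a, ‖I.mJ (fun μ => f (pt μ) * ic (S : Set Γ) μ) (Gm.E h (v a))‖ ^ 2
      ≤ B * (D * ‖I.ξ‖ ^ 2) := by
  have hF : BM fun μ => f (pt μ) * ic (S : Set Γ) μ :=
    (hf.comp measurable_from_top).mul (bm_ic_Γ _)
  have he : ∀ μ, BM fun b => f (pt μ) * (ic {0}ᶜ b * h (ac (ι (dl μ)) b)) := fun μ =>
    ((BM.ic (measurableSet_singleton 0).compl).mul (hh.comp (measurable_ac _))).const_mul _
  have e1 : ∀ a, ‖I.mJ (fun μ => f (pt μ) * ic (S : Set Γ) μ) (Gm.E h (v a))‖ ^ 2 = ∑ μ ∈ S,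
      ‖I.j ((Gm.E (fun b => f (pt μ) * (ic {0}ᶜ b * h (ac (ι (dl μ)) b))) * I.ρ μ⁻¹) (v a))‖ ^ 2 := by
    intro a
    rw [LG.norm_sq_eq_sum (F := S) fun μ hμ => by
      rw [I.mJ_apply hF, ic_of_notMem (by exact_mod_cast hμ), mul_zero, zero_smul]]
    refine Finset.sum_congr rfl fun μ hμ => ?_
    rw [I.mJ_apply hF, ic_of_mem (by exact_mod_cast hμ), mul_one, dinc_row hd hG hh hh0]
  simp only [e1]
  rw [Finset.sum_comm]
  refine (Finset.sum_le_sum fun μ _ => hv _ (mul_N (hd.N_eq ▸ hG.mem _ (he μ)) (I.ρ_N _))).trans ?_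
  rw [← Finset.mul_sum]
  refine mul_le_mul_of_nonneg_left (le_trans (le_of_eq (Finset.sum_congr rfl fun μ _ => ?_))
    (Gm.sum_norm_E_sq_le S (fun μ _ => (he μ).conj) (fun b => ?_) I.ξ)) hB
  · rw [star_mul, URep.star_apply, mul_apply_eq_comp, URep.norm_map, Gm.E_star (he μ)]
  · simpa only [RCLike.norm_conj] using hD b

/-- **INC** -/
theorem inc_seq (hd : I.IsDual I') (hL : I.Tight L) (hG : I'.Cov Gm)
    (hal : ∀ h, BM h → ∀ k : ℕ, Commute (Gm.E h) (I.U (al k))) {i : Fin 3} (hi : (0 : Fin 3) ≠ i)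
    (htv : ∀ h, BM h → ∀ b, Commute (Gm.E h) (I.U (tv hi b))) {f h : V → ℂ} (hf : BM f)
    (hh : BM h) (hh0 : Hom0 h) {θ : ℝ} (hθ : 0 < θ)
    (hni : ∀ a b, f a ≠ 0 → h b ≠ 0 → θ * (‖a‖ * ‖b‖) ≤ |a ⬝ᵥ b|) (ζ : K) :
    Tendsto (fun k : ℕ => I.mJ (fun μ => f (pt μ)) (I.U (al k) (Gm.E h ζ))) atTop (𝓝 0) := by
  obtain ⟨Cf, hCf0, hCf⟩ := hf.exists_nonneg
  obtain ⟨Ch, hCh0, hCh⟩ := hh.exists_nonneg
  have hF : BM fun μ => f (pt μ) := hf.comp measurable_from_top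
  -- the generating vectors
  have key : ∀ (ζ : K) (B R0 : ℝ), (∀ Y ∈ I.C.centralizer, ∀ (n : ℕ) (g : Fin n → G),
      (∀ a b, a ≠ b → R0 < nm ((g a)⁻¹ * g b)) →
        ∑ a, ‖I.j (Y (I.U (g a) ζ))‖ ^ 2 ≤ B * ‖star Y I.ξ‖ ^ 2) →
      Tendsto (fun k : ℕ => I.mJ (fun μ => f (pt μ)) (I.U (al k) (Gm.E h ζ))) atTop (𝓝 0) := by
    intro ζ B R0 hζ
    have k2 : ∀ ε > 0, ∀ᶠ k : ℕ in atTop,
        ‖I.mJ (fun μ => f (pt μ)) (I.U (al k) (Gm.E h ζ))‖ ≤ (2 * Cf + 1) * ε := by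
      intro ε hε
      obtain ⟨R, hR⟩ := hL.seq (Gm.E h ζ) ε hε
      obtain ⟨D, hD0, hD⟩ := dinc_overlap hCf hCh hθ hni R
      obtain ⟨n, hn⟩ := exists_nat_gt (|B| * (D * ‖I.ξ‖ ^ 2) / ε ^ 2)
      rw [div_lt_iff₀ (by positivity)] at hn
      have hδ : ∀ᶠ δ in 𝓝[>] (0 : ℝ), ∀ a : Fin n, ∀ g,
          ‖star (I.y (tv hi ((a : ℕ) * δ))) (I.U g (Gm.E h ζ)) - I.U g (Gm.E h ζ)‖ ≤ ε := by
        refine eventually_all.2 fun a => Eventually.filter_mono nhdsWithin_le_nhds ?_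
        have h1 : Tendsto (fun δ : ℝ => tv hi ((a : ℕ) * δ)) (𝓝 0) (𝓝 1) := by
          have : Continuous fun δ : ℝ => tv hi ((a : ℕ) * δ) := by fun_prop
          simpa using this.tendsto 0
        exact (h1.eventually (I.y_near_one (Gm.E h ζ) hε)).mono fun δ hδ g => (hδ g).1
      obtain ⟨δ, hδ, hδ0⟩ := (hδ.and self_mem_nhdsWithin).exists
      filter_upwards [hR, dinc_sep hi hδ0 R0 n] with k hk hsep
      set S := (finite_Sh (L k) R).toFinset with hS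
      have hS' : (S : Set Γ) = Sh (L k) R := Set.Finite.coe_toFinset _
      have h1 := dinc_sum hd hG hf hh hh0 (abs_nonneg B) S
        (hD (L k) S fun μ hμ => (Set.Finite.mem_toFinset _).1 hμ)
        (fun a : Fin n => I.U (tv hi ((a : ℕ) * δ) * al k) ζ) fun Y hY =>
          (hζ Y hY n _ hsep).trans (mul_le_mul_of_nonneg_right (le_abs_self B) (sq_nonneg _))
      obtain ⟨a, ha⟩ : ∃ a : Fin n, ‖I.mJ (fun μ => f (pt μ) * ic (S : Set Γ) μ)
          (Gm.E h (I.U (tv hi ((a : ℕ) * δ) * al k) ζ))‖ ≤ ε := by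
        by_contra hc
        push Not at hc
        have h2 := Finset.card_nsmul_le_sum Finset.univ _ (ε ^ 2) fun a _ =>
          pow_le_pow_left₀ hε.le (hc a).le 2
        rw [Finset.card_univ, Fintype.card_fin, nsmul_eq_mul] at h2
        linarith
      rw [hS', URep.mul_apply, bes_comm_apply (htv h hh _), bes_comm_apply (hal h hh k)] at ha
      have hF1 : BM fun μ => f (pt μ) * ic (Sh (L k) R) μ := hF.mul (bm_ic_Γ _)
      have hb1 : ∀ μ, ‖f (pt μ) * ic (Sh (L k) R) μ‖ ≤ Cf := fun μ => by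
        rw [norm_mul]
        exact (mul_le_of_le_one_right (norm_nonneg _) (norm_ic_le _ _)).trans (hCf _)
      set η := I.U (al k) (Gm.E h ζ) with hη
      set u := tv hi ((a : ℕ) * δ) with hu
      have h3 : ‖I.mJ (fun μ => f (pt μ) * ic (Sh (L k) R) μ) η‖ ≤ ε + Cf * ε := by
        rw [← I.norm_mJ_vv u hF1]
        have e : I.vv u η = I.U u η + I.U u (star (I.y u) η - η) := by
          rw [map_sub, add_sub_cancel]; rfl
        rw [e, map_add]
        refine (norm_add_le _ _).trans (add_le_add ha ((I.norm_mJ_le hCf0 hb1 _).trans ?_))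
        rw [URep.norm_map]
        exact mul_le_mul_of_nonneg_left (hδ a _) hCf0
      have e : (fun μ => f (pt μ)) =
          fun μ => f (pt μ) * ic (Sh (L k) R) μ + f (pt μ) * ic (Sh (L k) R)ᶜ μ := funext fun μ => by
        by_cases hμ : μ ∈ Sh (L k) R <;> simp [hμ]
      have h4 : ‖I.mJ (fun μ => f (pt μ) * ic (Sh (L k) R)ᶜ μ) η‖ ≤ Cf * ε :=
        (I.norm_mJ_mono (bm_ic_Γ (Sh (L k) R)ᶜ) hCf0 (fun μ => by
          rw [norm_mul]; exact mul_le_mul_of_nonneg_right (hCf _) (norm_nonneg _)) η).trans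
          (mul_le_mul_of_nonneg_left hk hCf0)
      rw [e, I.mJ_add hF1 (hF.mul (bm_ic_Γ _)), _root_.add_apply]
      refine (norm_add_le _ _).trans ?_
      linarith
    refine NormedAddGroup.tendsto_nhds_zero.2 fun ε hε => ?_
    filter_upwards [k2 (ε / 2 / (2 * Cf + 1)) (by positivity)] with k hk
    rw [mul_div_cancel₀ _ (by positivity)] at hk
    linarith
  -- density
  have hspan : ∀ ζ ∈ Submodule.span ℂ {η | (∃ a ∈ I.C, ∃ μ, η = a (I.ρ μ I.ξ)) ∧ ∃ B R : ℝ,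
      ∀ Y ∈ I.C.centralizer, ∀ (n : ℕ) (g : Fin n → G), (∀ i k, i ≠ k → R < nm ((g i)⁻¹ * g k)) →
        ∑ i, ‖I.j (Y (I.U (g i) η))‖ ^ 2 ≤ B * ‖star Y I.ξ‖ ^ 2},
      Tendsto (fun k : ℕ => I.mJ (fun μ => f (pt μ)) (I.U (al k) (Gm.E h ζ))) atTop (𝓝 0) := by
    intro ζ hζ
    induction hζ using Submodule.span_induction with
    | mem x hx => obtain ⟨-, B, R0, hx⟩ := hx; exact key x B R0 hx
    | zero => simpa only [map_zero] using tendsto_const_nhds
    | add x y _ _ hx hy => simpa only [map_add, add_zero] using hx.add hy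
    | smul c x _ hx => simpa only [map_smul, smul_zero] using hx.const_smul c
  refine NormedAddGroup.tendsto_nhds_zero.2 fun ε hε => ?_
  obtain ⟨ζ', hζ', hd'⟩ := I.sep.exists_dist_lt ζ (ε := ε / 2 / (Cf * Ch + 1)) (by positivity)
  filter_upwards [NormedAddGroup.tendsto_nhds_zero.1 (hspan ζ' hζ') (ε / 2) (by positivity)]
    with k hk
  have e : ζ = ζ' + (ζ - ζ') := by abel
  have h1 : ‖I.mJ (fun μ => f (pt μ)) (I.U (al k) (Gm.E h (ζ - ζ')))‖ ≤ ε / 2 := by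
    refine (I.norm_mJ_le hCf0 (fun μ => hCf _) _).trans ?_
    rw [URep.norm_map]
    have h2 := (Gm.E h).le_of_opNorm_le (Gm.norm_E_le hh.meas hCh0 hCh) (ζ - ζ')
    rw [dist_eq_norm, lt_div_iff₀ (by positivity)] at hd'
    nlinarith [mul_le_mul_of_nonneg_left h2 hCf0, norm_nonneg (ζ - ζ')]
  rw [e, map_add, map_add, map_add]
  refine (norm_add_le _ _).trans_lt ?_
  linarith

variable (I) in
/-- a weak limit of the attracting point along `l` -/
structure IsLim (l : Filter ℕ) (P : POVM V K) : Prop where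
  proj : P.Proj
  lim : ∀ f, BM f → Hom0 f → ContinuousOn f {0}ᶜ →
    WTends l (fun k => I.σ k (I.m fun μ => f (pt μ))) (P.E f)

theorem dinc_norm_inner_le (I : Ind K) (k : ℕ) (F : Γ → ℂ) (ζ η : K) :
    ‖⟪ζ, I.σ k (I.m F) η⟫_ℂ‖ ≤ ‖ζ‖ * ‖I.mJ F (I.U (al k) η)‖ := by
  refine (norm_inner_le_norm _ _).trans (mul_le_mul_of_nonneg_left ?_ (norm_nonneg _))
  rw [I.norm_σ_apply]
  exact I.norm_m_apply_le _ _

theorem exists_isLim (I : Ind K) (l : Ultrafilter ℕ) : ∃ P, I.IsLim l P := by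
  let π : Γ → Metric.sphere (0 : V) 1 := fun μ =>
    ⟨nrm (pt μ), mem_sphere_zero_iff_norm.2 (norm_nrm (pt_ne_zero μ))⟩
  have hb : ∀ F : C(Metric.sphere (0 : V) 1, ℂ), BM fun μ => F (π μ) := fun F =>
    bm_Γ fun μ => F.norm_coe_le_norm _
  have hw : ∀ F : C(Metric.sphere (0 : V) 1, ℂ), ∃ T,
      WTends l (fun k => I.σ k (I.m fun μ => F (π μ))) T := fun F =>
    ⟨_, wtends_wlim l (C := ‖F‖) (Eventually.of_forall fun k => by
      rw [I.norm_σ]; exact I.norm_m_le (norm_nonneg _) fun μ => F.norm_coe_le_norm _)⟩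
  choose T hT using hw
  let Λ : C(Metric.sphere (0 : V) 1, ℂ) →ₗ[ℂ] (K →L[ℂ] K) :=
    { toFun := T
      map_add' := fun F F' => (hT (F + F')).unique fun w v => by
        have := (hT F w v).add (hT F' w v)
        simp only [ContinuousMap.add_apply, show I.m (fun μ => F (π μ) + F' (π μ)) = _ from
          I.mP.E_add (hb F) (hb F'), mP_E, I.σ_add, _root_.add_apply, inner_add_right]
        exact this
      map_smul' := fun c F => (hT (c • F)).unique fun w v => by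
        have := (hT F w v).const_mul c
        simp only [ContinuousMap.smul_apply, smul_eq_mul, show I.m (fun μ => c * F (π μ)) = _ from
          I.mP.E_smul c (hb F), mP_E, I.σ_smul, _root_.smul_apply, inner_smul_right,
          RingHom.id_apply]
        exact this }
  obtain ⟨P, hP⟩ := POVM.exists_of_pos Λ (fun F η hF => by
      have h1 : ∀ k, 0 ≤ (⟪η, I.σ k (I.m fun μ => F (π μ)) η⟫_ℂ).re ∧
          (⟪η, I.σ k (I.m fun μ => F (π μ)) η⟫_ℂ).im = 0 := fun k => by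
        have h2 := I.hasSum_inner_m_self (hb F) (I.U (al k) η)
        rw [I.inner_σ]
        refine ⟨(Complex.hasSum_re h2).nonneg fun μ => ?_,
          (Complex.hasSum_im h2).unique (hasSum_zero.congr_fun fun μ => ?_)⟩
        · rw [Complex.re_mul_ofReal]; exact mul_nonneg (hF _).1 (sq_nonneg _)
        · rw [Complex.im_mul_ofReal, (hF _).2, zero_mul]
      exact ⟨ge_of_tendsto' ((Complex.continuous_re.tendsto _).comp (hT F η η)) fun k => (h1 k).1,
        tendsto_nhds_unique ((Complex.continuous_im.tendsto _).comp (hT F η η))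
          (tendsto_const_nhds.congr fun k => (h1 k).2.symm)⟩)
    ((hT 1).unique fun w v => by
      simp only [ContinuousMap.one_apply, I.m_one, I.σ_one]
      exact tendsto_const_nhds)
  have hn : ∀ z : Metric.sphere (0 : V) 1, ‖sg (z : V)‖ = 1 := fun z => by
    rcases sg_eq (z : V) with h | h <;> rw [h] <;> simp
  refine ⟨P.map (fun z => sg (z : V)) (measurable_sg.comp measurable_subtype_coe),
    ⟨fun f hf => ?_, ?_⟩, fun f hf h0 hc => ?_⟩
  · simp only [POVM.map_E, nrm, hn, inv_one, one_smul, sg_sg]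
  · rw [POVM.map_E, ← P.E_zero]
    congr 1
    funext z
    refine ic_of_notMem fun h => ?_
    have := hn z
    rw [h, norm_zero] at this
    exact zero_ne_one this
  · let F : C(Metric.sphere (0 : V) 1, ℂ) := ⟨fun z => f z,
      hc.comp_continuous continuous_subtype_val fun z => ne_zero_of_mem_unit_sphere z⟩
    have h1 := hT F
    have h2 : P.E F = T F := hP F
    simp only [POVM.map_E, h0.ev.sg]
    rw [← h2] at h1
    simpa only [F, π, ContinuousMap.coe_mk, h0.nrm] using h1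

theorem IsPro.isLim {Φ : V → POVM V K} (h : I.IsPro Φ) : I.IsLim atTop (Φ (ev 0)) :=
  ⟨h.proj _, fun _ hf h0 hc => WTends.of_strong (h.tendsto_σ hf h0 hc)⟩

theorem IsLim.cov [l.NeBot] (h : I.IsLim l P) (hl : l ≤ atTop) (hL : I.Tight L) : I.Cov P := by
  refine ⟨h.proj, fun f hf => I.mem_N.2 fun a ha => h.proj.commute (fun f hf h0 hc => ?_) hf,
    fun f hf h0 ν => ?_⟩
  · exact I.mem_N.1 (wtends_N (Eventually.of_forall fun k =>
      I.σ_N (I.m_N (hf.comp measurable_from_top)) k) (h.lim f hf h0 hc)) a ha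
  have hW' : IsPoly1 fun f : V → ℂ => P.E fun a => f (ac (ι ν⁻¹) a) :=
    (P.map _ (measurable_ac (ι ν⁻¹))).isPoly1
  refine (P.isPoly1.mul (I.ρ ν) (I.ρ ν⁻¹)).ext_hom0 hW' (fun f hf h0 hc => ?_) f hf h0
  obtain ⟨C, hC0, hC⟩ := hf.exists_nonneg
  have h1 := ((h.lim f hf h0 hc).mul_left (I.ρ ν)).mul_right (I.ρ ν⁻¹)
  simp only [I.ρ_σ, I.ρ_m (hf.comp measurable_from_top)] at h1
  have h2 := h.lim _ (hf.comp (measurable_ac (ι ν⁻¹))) (h0.ac _)
    (hc.comp (continuous_ac _).continuousOn fun a ha => ac_ne_zero _ ha)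
  refine h1.unique fun w v => ?_
  have h3 : Tendsto (fun k : ℕ => I.mJ (fun μ => f (pt (ν⁻¹ * μ)) - f (ac (ι ν⁻¹) (pt μ)))
      (I.U (al k) v)) atTop (𝓝 0) :=
    (hL.seq v).tendsto_mJ (C := ‖v‖) (D := C + C) (Eventually.of_forall fun k => by simp)
      (fun k μ => (norm_sub_le _ _).trans (add_le_add (hC _) (hC _)))
      fun R ε hε => hL.1.eventually (cov_pt h0 hc ν⁻¹ R hε)
  have h4 : Tendsto (fun k : ℕ => ⟪w, I.σ k (I.m fun μ =>
      f (pt (ν⁻¹ * μ)) - f (ac (ι ν⁻¹) (pt μ))) v⟫_ℂ) atTop (𝓝 0) :=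
    squeeze_zero_norm (fun k => I.dinc_norm_inner_le k _ w v)
      (by simpa using h3.norm.const_mul ‖w‖)
  have h5 := (h4.mono_left hl).add (h2 w v)
  rw [zero_add] at h5
  refine h5.congr fun k => ?_
  rw [show I.m (fun μ => f (pt (ν⁻¹ * μ)) - f (ac (ι ν⁻¹) (pt μ))) = _ from
    I.mP.E_sub (bm_Γ fun μ => hC _) (bm_Γ fun μ => hC _), mP_E, I.σ_sub,
    _root_.sub_apply, inner_sub_right, sub_add_cancel]

theorem IsLim.inv [l.NeBot] (h : I.IsLim l P) (hl : l ≤ atTop) (hL : I.Tight L) (q : G) (z : ℝ)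
    (hq : ac q (ev 0) = z • ev 0) (f : V → ℂ) (hf : BM f) : I.U q * P.E f * I.U q⁻¹ = P.E f := by
  have hc : Commute (I.U q) (P.E f) := by
    refine h.proj.commute (fun f hf h0 hc => ?_) hf
    obtain ⟨C, hC0, hC⟩ := hf.exists_nonneg
    obtain ⟨q', hq'⟩ := exists_tendsto_al_conj hq
    have key : ∀ ζ η, ⟪I.U q ζ, P.E f (I.U q η)⟫_ℂ = ⟪ζ, P.E f η⟫_ℂ := fun ζ η => by
      have h1 := (h.lim f hf h0 hc (I.U q ζ) (I.U q η)).sub (h.lim f hf h0 hc ζ η)
      have h2 := (fpU hL (F := fun _ μ => f (pt μ)) (fun _ _ => hC _) (shSlow_pt hL.1 h0 hc) hq'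
        ζ η).mono_left hl
      refine sub_eq_zero.1 (tendsto_nhds_unique h1 (h2.congr fun k => ?_))
      simp only [I.inner_σ, ← URep.mul_apply, inv_mul_cancel_right]
    ext η
    refine ext_inner_left ℂ fun ζ => ?_
    have := key (I.U q⁻¹ ζ) η
    rw [URep.apply_inv_apply, ← URep.inner_right] at this
    exact this.symm
  rw [hc.eq, mul_assoc, URep.mul_inv_self, mul_one]

theorem IsLim.gen [l.NeBot] (h : I.IsLim l P) (hl : l ≤ atTop) {S : K →L[ℂ] K}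
    (hS : ∀ T ∈ I.LimSet, Commute S T) {f : V → ℂ} (hf : BM f) : Commute S (P.E f) := by
  refine h.proj.commute (fun f hf h0 hc => ?_) hf
  obtain ⟨C, hC0, hC⟩ := hf.exists_nonneg
  have hC1 : ((C + 1 : ℝ) : ℂ) ≠ 0 := by exact_mod_cast (by positivity : C + 1 ≠ 0)
  have h1 : Commute S (P.E fun a => ((C + 1 : ℝ) : ℂ)⁻¹ * f a) := by
    refine hS _ ⟨l, fun _ μ => ((C + 1 : ℝ) : ℂ)⁻¹ * f (pt μ), inferInstance, hl, fun _ μ => ?_,
      h.lim (fun a => ((C + 1 : ℝ) : ℂ)⁻¹ * f a) (hf.const_mul _)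
        (fun z hz a => by simp only [h0 z hz]) (continuousOn_const.mul hc)⟩
    rw [norm_mul, norm_inv, Complex.norm_real, Real.norm_eq_abs, abs_of_pos (by positivity),
      inv_mul_le_iff₀ (by positivity)]
    linarith [hC (pt μ)]
  rw [P.E_smul _ hf] at h1
  simpa only [smul_smul, mul_inv_cancel₀ hC1, one_smul] using h1.smul_right ((C + 1 : ℝ) : ℂ)

theorem IsLim.inc [l.NeBot] (h : I.IsLim l P) (hl : l ≤ atTop) (hd : I.IsDual I') (hL : I.Tight L)
    (hG : I'.Cov Gm) (hal : ∀ h, BM h → ∀ k : ℕ, Commute (Gm.E h) (I.U (al k))) {i : Fin 3}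
    (hi : (0 : Fin 3) ≠ i) (htv : ∀ h, BM h → ∀ b, Commute (Gm.E h) (I.U (tv hi b))) :
    Inc P Gm := by
  refine inc_of_ni h.proj hG.proj fun f g hf h0 hc hg hg0 _ θ hθ hni => ?_
  ext ζ
  refine ext_inner_left ℂ fun w => ?_
  have h1 := (inc_seq hd hL hG hal hi htv hf hg hg0 hθ hni ζ).norm.const_mul ‖w‖
  rw [norm_zero, mul_zero] at h1
  have h2 := squeeze_zero_norm (fun k => I.dinc_norm_inner_le k _ w (Gm.E g ζ)) h1
  rw [_root_.zero_apply, inner_zero_right]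
  exact tendsto_nhds_unique (h.lim f hf h0 hc w (Gm.E g ζ)) (h2.mono_left hl)

/-- a PVM limit along `atTop` is a strong limit -/
theorem IsLim.strong (h : I.IsLim atTop P) (hp : P.IsPVM) {f : V → ℂ} (hf : BM f) (h0 : Hom0 f)
    (hc : ContinuousOn f {0}ᶜ) (η : K) :
    Tendsto (fun k : ℕ => I.mJ (fun μ => f (pt μ)) (I.U (al k) η)
      - I.J (I.U (al k) (P.E f η))) atTop (𝓝 0) := by
  have hF : BM fun μ => f (pt μ) := hf.comp measurable_from_top
  have h1 := h.lim (fun a => (starRingEnd ℂ) (f a) * f a) (hf.conj.mul hf)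
    (fun z hz a => by simp only [h0 z hz]) ((Complex.continuous_conj.comp_continuousOn hc).mul hc) η η
  rw [← hp.inner_E_E hf hf] at h1
  have h2 := h.lim f hf h0 hc (P.E f η) η
  have h3 := (Complex.continuous_conj.tendsto _).comp h2
  rw [inner_conj_symm] at h3
  have h4 := ((h1.sub h3).sub h2).add_const ⟪P.E f η, P.E f η⟫_ℂ
  rw [sub_self, zero_sub, neg_add_cancel] at h4
  have h5 : Tendsto (fun k : ℕ => ‖I.mJ (fun μ => f (pt μ)) (I.U (al k) η)
      - I.J (I.U (al k) (P.E f η))‖ ^ 2) atTop (𝓝 0) := by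
    refine ((Complex.continuous_re.tendsto _).comp h4).congr fun k => ?_
    rw [← inner_self_eq_norm_sq (𝕜 := ℂ), inner_sub_left, inner_sub_right, inner_sub_right,
      I.inner_mJ hF hF, I.inner_J, URep.inner_map_map, ← I.inner_m,
      ← inner_conj_symm (I.mJ _ _) (I.J _), ← I.inner_m]
    simp only [Function.comp, I.inner_σ, RCLike.re_to_complex]
    congr 1
    ring
  rw [tendsto_zero_iff_norm_tendsto_zero]
  simpa using h5.sqrt

end Ind

end Crest.Agent.N111
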