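import Crest.Agent.N111.D.Syn

/-! # Row 111: the middle slot is determined by the outer slots (fill the proofs IN PLACE). -/

set_option autoImplicit false
set_option linter.unusedSectionVars false
set_option linter.unusedVariables false

namespace Crest.Agent.N111

open MeasureTheory Topology Filter Matrix
open scoped InnerProductSpace

variable {K : Type} [NormedAddCommGroup K] [InnerProductSpace ℂ K] [CompleteSpace K]

namespace Mid

/-- `|n|² bᵢ bₖ ≡ nᵢ nₖ |b|²` modulo `a·b` and `b·c`, for `n = a × c` -/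
theorem poly_id {S : Type} [CommRing S] (a b c : Fin 3 → S) (i k : Fin 3) :
    ∑ p, ∑ q, (a p * a p * (b i * b k) * (c q * c q) - a p * a q * (b i * b k) * (c p * c q))
      = (a ⨯₃ c) i * ((a ⨯₃ c) k * ∑ j, b j * b j)
        + ((a ⨯₃ c) i * (b ⨯₃ a) k + ((a ⨯₃ c) ⨯₃ a) i * b k) * ∑ j, b j * c j
        - ((a ⨯₃ c) i * (b ⨯₃ c) k + ((a ⨯₃ c) ⨯₃ c) i * b k) * ∑ j, a j * b j := by
  fin_cases i <;> fin_cases k <;> simp [cross_apply, Fin.sum_univ_three] <;> ring

section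
variable {B E : Type} [CommMonoid B] [AddCommGroup E] [Module ℂ E]

/-- translation action -/
def tr (M E : Type) [CommMonoid M] [AddCommGroup E] [Module ℂ E] :
    M →* Module.End ℂ (M → E) where
  toFun u := LinearMap.funLeft ℂ E fun f => u * f
  map_one' := by ext T f; simp [LinearMap.funLeft_apply]
  map_mul' u v := by
    refine LinearMap.ext fun T => funext fun f => ?_
    simp [LinearMap.funLeft_apply, mul_left_comm, mul_assoc]

theorem alg (c : Fin 3 → B) (T : B × B × B → E)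
    (r1 : ∀ f h g, ∑ i, T (c i * f, c i * h, g) = 0)
    (r2 : ∀ f h g, ∑ i, T (f, c i * h, c i * g) = 0) {S₀ S₂ : Set B}
    (h₀ : ∀ f ∈ S₀, ∀ i, c i * f ∈ S₀) (h₂ : ∀ g ∈ S₂, ∀ i, c i * g ∈ S₂) {h : B}
    (hn : ∀ f ∈ S₀, ∀ g ∈ S₂, ∑ j, T (f, c j * c j * h, g) = 0) (i k : Fin 3) :
    ∀ f ∈ S₀, ∀ g ∈ S₂, ∑ p, ∑ q, (T (c p * c p * f, c i * c k * h, c q * c q * g)
      - T (c p * c q * f, c i * c k * h, c p * c q * g)) = 0 := by
  intro f hf g hg
  let act := MonoidAlgebra.lift ℂ (Module.End ℂ (B × B × B → E)) (B × B × B) (tr _ E)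
  have hact : ∀ u (T : B × B × B → E) v, act (MonoidAlgebra.of ℂ _ u) T v = T (u * v) :=
    fun u T v => by simp only [act, MonoidAlgebra.lift_of]; rfl
  let xa : Fin 3 → MonoidAlgebra ℂ (B × B × B) := fun i => MonoidAlgebra.of ℂ _ (c i, 1, 1)
  let xb : Fin 3 → MonoidAlgebra ℂ (B × B × B) := fun i => MonoidAlgebra.of ℂ _ (1, c i, 1)
  let xc : Fin 3 → MonoidAlgebra ℂ (B × B × B) := fun i => MonoidAlgebra.of ℂ _ (1, 1, c i)
  have e1 : act (∑ j, xa j * xb j) T = 0 := by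
    funext ⟨f, h, g⟩
    simpa only [xa, xb, ← map_mul, map_sum, LinearMap.sum_apply, Finset.sum_apply, hact,
      Prod.mk_mul_mk, mul_one, one_mul, Pi.zero_apply] using r1 f h g
  have e2 : act (∑ j, xb j * xc j) T = 0 := by
    funext ⟨f, h, g⟩
    simpa only [xb, xc, ← map_mul, map_sum, LinearMap.sum_apply, Finset.sum_apply, hact,
      Prod.mk_mul_mk, mul_one, one_mul, Pi.zero_apply] using r2 f h g
  let Z : (B × B × B → E) → Prop := fun T' => ∀ f ∈ S₀, ∀ g ∈ S₂, T' (f, h, g) = 0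
  have z0 : Z (act (∑ j, xb j * xb j) T) := fun f hf g hg => by
    simpa only [xb, ← map_mul, map_sum, LinearMap.sum_apply, Finset.sum_apply, hact,
      Prod.mk_mul_mk, mul_one, one_mul, Pi.zero_apply] using hn f hf g hg
  have z1 : ∀ p q T', Z T' → Z (act (xa p * xc q) T') := fun p q T' hT f hf g hg => by
    simpa only [xa, xc, ← map_mul, hact, Prod.mk_mul_mk, mul_one, one_mul]
      using hT _ (h₀ f hf p) _ (h₂ g hg q)
  have z2 : ∀ i T', Z T' → Z (act ((xa ⨯₃ xc) i) T') := fun i T' hT f hf g hg => by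
    fin_cases i <;>
      simp only [cross_apply, Fin.reduceFinMk, Fin.zero_eta, Fin.mk_one, Matrix.cons_val, map_sub,
        LinearMap.sub_apply, Pi.sub_apply, z1 _ _ _ hT f hf g hg, sub_self]
  have key := congrArg (fun r => act r T (f, h, g)) (poly_id xa xb xc i k)
  simp only [map_sub act, map_add act, map_mul act ((xa ⨯₃ xc) i), map_mul act ((xa ⨯₃ xc) k),
    map_mul act _ (∑ j, xb j * xc j), map_mul act _ (∑ j, xa j * xb j), LinearMap.sub_apply,
    LinearMap.add_apply, Module.End.mul_apply, e1, e2, map_zero, Pi.sub_apply,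
    Pi.zero_apply, z2 _ _ (z2 _ _ z0) f hf g hg, add_zero, sub_zero] at key
  simpa only [xa, xb, xc, map_sum, map_sub, ← map_mul, LinearMap.sum_apply, LinearMap.sub_apply,
    Finset.sum_apply, Pi.sub_apply, hact, Prod.mk_mul_mk, mul_one, one_mul] using key

end


/-- monotone classes on the projective plane -/
theorem of_proj {p : (V → ℂ) → Prop} (hp : MClass p) (e1 : p fun _ => 1)
    (e : ∀ f, BM f → p f → ∀ i k : Fin 3, p fun a => f a * ((a i * a k / (a ⬝ᵥ a) : ℝ) : ℂ)) :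
    ∀ f, BM f → Hom0 f → p f := fun f hf h0 => by
  let φ : V → Metric.closedBall (0 : Fin 3 → Fin 3 → ℝ) 1 := fun a =>
    ⟨Pj.pm a, mem_closedBall_zero_iff.2 (Pj.norm_pm_le a)⟩
  have hφ : Measurable φ := Pj.measurable_pm.subtype_mk
  let c : Fin 3 × Fin 3 → C(Metric.closedBall (0 : Fin 3 → Fin 3 → ℝ) 1, ℂ) := fun q =>
    ⟨fun M => (M.1 q.1 q.2 : ℝ), Complex.continuous_ofReal.comp
      ((continuous_apply_apply q.1 q.2).comp continuous_subtype_val)⟩
  have := (hp.comp hφ).of_gen (S := Set.range c)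
    (by rintro _ ⟨q, rfl⟩; ext M; exact Complex.conj_ofReal _)
    (fun x y hxy => by
      by_contra! H
      exact hxy (Subtype.ext (funext fun i => funext fun k =>
        Complex.ofReal_injective (H _ ⟨(i, k), rfl⟩)))) e1
    (by
      rintro _ ⟨q, rfl⟩ F hF
      simp only [mul_comm (c q)]
      exact e _ ((BM.of_cm F).comp hφ) hF q.1 q.2)
    (hf.comp (Pj.measurable_rw.comp measurable_subtype_coe))
  simpa only [φ, Function.comp, Pj.hom0_rw h0] using this

theorem bm3 {f h g : V → ℂ} (hf : BM f) (hh : BM h) (hg : BM g) : ∀ k, BM (![f, h, g] k) :=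
  fun k => by fin_cases k <;> assumption

theorem up0 {α : Type} (a b c d : α) : Function.update ![a, b, c] 0 d = ![d, b, c] := by
  funext i; fin_cases i <;> rfl

theorem up1 {α : Type} (a b c d : α) : Function.update ![a, b, c] 1 d = ![a, d, c] := by
  funext i; fin_cases i <;> rfl

theorem up2 {α : Type} (a b c d : α) : Function.update ![a, b, c] 2 d = ![a, b, d] := by
  funext i; fin_cases i <;> rfl

variable {W : (Fin 3 → V → ℂ) → K →L[ℂ] K}

theorem isPoly2 (hW : IsPoly W) {h : V → ℂ} (hh : BM h) :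
    IsPoly fun f : Fin 2 → V → ℂ => W ![f 0, h, f 1] where
  add f i g g' hf hg hg' := by
    fin_cases i
    · simpa [up0] using hW.add ![f 0, h, f 1] 0 g g' (bm3 (hf 0) hh (hf 1)) hg hg'
    · simpa [up2] using hW.add ![f 0, h, f 1] 2 g g' (bm3 (hf 0) hh (hf 1)) hg hg'
  smul f i c g hf hg := by
    fin_cases i
    · simpa [up0] using hW.smul ![f 0, h, f 1] 0 c g (bm3 (hf 0) hh (hf 1)) hg
    · simpa [up2] using hW.smul ![f 0, h, f 1] 2 c g (bm3 (hf 0) hh (hf 1)) hg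
  bdd := by
    obtain ⟨C, hC0, hC⟩ := hW.norm_le
    obtain ⟨D, hD0, hD⟩ := hh.exists_nonneg
    refine ⟨C * ∏ k, ![1, D, 1] k, fun f hf hb => hC _ ![1, D, 1] (fun k => ?_) (fun k => ?_)
      fun k => ?_⟩ <;> fin_cases k
    exacts [hf 0, hh.1, hf 1, zero_le_one, hD0, zero_le_one, hb 0, hD, hb 1]
  lim f g C hm hb hl η := by
    obtain ⟨D, hD0, hD⟩ := hh.exists_nonneg
    refine hW.lim (fun n => ![f n 0, h, f n 1]) ![g 0, h, g 1] (max C D) (fun n k => ?_)
      (fun n k y => ?_) (fun k y => ?_) η <;> fin_cases k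
    exacts [hm n 0, hh.1, hm n 1, le_max_of_le_left (hb n 0 y), le_max_of_le_right (hD y),
      le_max_of_le_left (hb n 1 y), hl 0 y, tendsto_const_nhds, hl 1 y]

theorem isPoly1_mid (hW : IsPoly W) {f g : V → ℂ} (hf : BM f) (hg : BM g) :
    IsPoly1 fun h => W ![f, h, g] := by
  simpa only [up1] using hW.isPoly1 (bm3 hf hf hg) 1

theorem exists_box {z : Fin 2 → V} (hz : z 0 ⨯₃ z 1 ≠ 0) : ∃ O : Fin 2 → Set V,
    (∀ k, IsOpen (O k)) ∧ (∀ k, z k ∈ O k) ∧ ∀ a ∈ O 0, ∀ b ∈ O 1, a ⨯₃ b ≠ 0 := by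
  have hc : Continuous fun p : V × V => p.1 ⨯₃ p.2 := by
    refine continuous_pi fun i => ?_
    fin_cases i <;> simp [cross_apply] <;> fun_prop
  obtain ⟨u, v, hu, hv, h0, h1, h⟩ :=
    isOpen_prod_iff.1 (isOpen_ne_fun hc (continuous_const (y := (0 : V)))) (z 0) (z 1) hz
  refine ⟨![u, v], fun k => ?_, fun k => ?_, fun a ha b hb => h (Set.mk_mem_prod ha hb)⟩ <;>
    fin_cases k <;> assumption

/-- vanishing on all boxes of non-parallel vectors -/
def Nl (W : (Fin 2 → V → ℂ) → K →L[ℂ] K) : Prop :=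
  ∀ O : Fin 2 → Set V, (∀ k, IsOpen (O k)) → (∀ a ∈ O 0, ∀ b ∈ O 1, a ⨯₃ b ≠ 0) → NullOn W O

theorem Nl.supp {W : (Fin 2 → V → ℂ) → K →L[ℂ] K} (h : Nl W) : ∀ z ∈ supp W, z 0 ⨯₃ z 1 = 0 :=
  fun z hz => by
    by_contra H
    obtain ⟨O, h1, h2, h3⟩ := exists_box H
    exact hz O (fun k => (h1 k).mem_nhds (h2 k)) (h O h1 h3)

theorem nl_of_supp {W : (Fin 2 → V → ℂ) → K →L[ℂ] K} (hW : IsPoly W)
    (h : ∀ z ∈ supp W, z 0 ⨯₃ z 1 = 0) : Nl W := fun O h1 h2 =>
  hW.nullOn_of_disjoint (fun k => isSigmaCompact_of_isOpen (h1 k))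
    fun z hz hs => h2 _ (hz 0) _ (hz 1) (h z hs)

theorem mclass_nl (hW : IsPoly W) :
    MClass fun h => Nl fun f : Fin 2 → V → ℂ => W ![f 0, h, f 1] where
  add h h' hh hh' e e' O h1 h2 f hf h0 := by
    have := (isPoly1_mid hW (hf 0) (hf 1)).add h h' hh hh'
    simp only [e O h1 h2 f hf h0, e' O h1 h2 f hf h0, add_zero] at this
    exact this
  smul c h hh e O h1 h2 f hf h0 := by
    have := (isPoly1_mid hW (hf 0) (hf 1)).smul c h hh
    simp only [e O h1 h2 f hf h0, smul_zero] at this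
    exact this
  lim h g C hm hb hl e O h1 h2 f hf h0 := by
    refine ContinuousLinearMap.ext fun η => ?_
    have := (isPoly1_mid hW (hf 0) (hf 1)).lim h g C hm hb hl η
    simp only [fun n => e n O h1 h2 f hf h0] at this
    exact tendsto_nhds_unique this tendsto_const_nhds

/-- the monoid of bounded Borel functions -/
def Bm : Submonoid (V → ℂ) where
  carrier := {u | BM u}
  mul_mem' ha hb := BM.mul ha hb
  one_mem' := BM.one

/-- the weight `‖b‖² / (b·b)` -/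
noncomputable def wt (b : V) : ℂ := ((‖b‖ ^ 2 / (b ⬝ᵥ b) : ℝ) : ℂ)

theorem bm_wt : BM wt := by
  refine BM.ofReal (C := 1) (by unfold dotProduct; fun_prop) fun b => ?_
  have h0 : 0 ≤ b ⬝ᵥ b := (sq_nonneg _).trans (norm_sq_le_dot b)
  rw [abs_of_nonneg (by positivity)]
  exact div_le_one_of_le₀ (norm_sq_le_dot b) h0

theorem co_co_wt (i k : Fin 3) (b : V) :
    co i b * co k b * wt b = ((b i * b k / (b ⬝ᵥ b) : ℝ) : ℂ) := by
  by_cases hb : b = 0
  · simp [hb, co, nrm_zero]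
  have := norm_ne_zero_iff.2 hb
  rw [co, co, wt, ← Complex.ofReal_mul, ← Complex.ofReal_mul]
  congr 1
  simp only [nrm, Pi.smul_apply, smul_eq_mul]
  field_simp

theorem sum_co_wt (h : V → ℂ) (b : V) :
    ∑ j, co j b * co j b * (wt b * h b) = h b + -h 0 * ic {0} b := by
  simp only [← mul_assoc, co_co_wt, ← Finset.sum_mul, ← Complex.ofReal_sum, ← Finset.sum_div]
  by_cases hb : b = 0
  · simp [hb, ic_of_mem]
  · rw [ic_of_notMem (by simpa using hb), show ∑ j, b j * b j = b ⬝ᵥ b from rfl,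
      div_self (Pj.dot_ne hb)]
    simp

theorem lagrange_ne {a b : V} (h : a ⨯₃ b ≠ 0) :
    ∑ p, ∑ q, (co p a * co p a * (co q b * co q b) - co p a * co q a * (co p b * co q b)) ≠ 0 := by
  have ha : a ≠ 0 := fun e => h (by simp [e])
  have hb : b ≠ 0 := fun e => h (by simp [e])
  have h1 : nrm a ⨯₃ nrm b ≠ 0 := by
    simp only [nrm, map_smul, LinearMap.smul_apply]
    exact smul_ne_zero (inv_ne_zero (norm_ne_zero_iff.2 hb))
      (smul_ne_zero (inv_ne_zero (norm_ne_zero_iff.2 ha)) h)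
  have h2 := Complex.ofReal_ne_zero.2 (Pj.dot_ne h1)
  convert h2 using 1
  simp [co, cross_apply, dotProduct, Fin.sum_univ_three]
  ring

theorem step (hW : IsPoly W) (hz : ∀ f g, BM f → BM g → W ![f, ic {0}, g] = 0)
    (r1 : ∀ f h g, BM f → BM h → BM g →
      ∑ i, W ![fun a => f a * co i a, fun b => h b * co i b, g] = 0)
    (r2 : ∀ f h g, BM f → BM h → BM g →
      ∑ i, W ![f, fun b => h b * co i b, fun a => g a * co i a] = 0)
    {h : V → ℂ} (hh : BM h) (hn : Nl fun f : Fin 2 → V → ℂ => W ![f 0, h, f 1]) (i k : Fin 3) :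
    Nl fun f : Fin 2 → V → ℂ =>
      W ![f 0, fun a => h a * ((a i * a k / (a ⬝ᵥ a) : ℝ) : ℂ), f 1] := by
  have e0 : (fun a => h a * ((a i * a k / (a ⬝ᵥ a) : ℝ) : ℂ))
      = fun a => co i a * co k a * (wt a * h a) := funext fun a => by
    rw [← mul_assoc, co_co_wt, mul_comm]
  rw [e0]
  have hp := isPoly2 hW (((bm_co i).mul (bm_co k)).mul (bm_wt.mul hh))
  refine nl_of_supp hp fun z hz' => ?_
  by_contra H
  have ha : z 0 ≠ 0 := fun e => H (by simp [e])
  have hb : z 1 ≠ 0 := fun e => H (by simp [e])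
  obtain ⟨O, h1, h2, h3⟩ := exists_box H
  refine hp.not_mem_supp_of_mul (Finset.univ : Finset ((Fin 3 × Fin 3) ⊕ (Fin 3 × Fin 3)))
    (a := Sum.elim (fun _ => 1) fun _ => -1)
    (u := Sum.elim (fun r => ![fun y => co r.1 y * co r.1 y, fun y => co r.2 y * co r.2 y])
      fun r => ![fun y => co r.1 y * co r.2 y, fun y => co r.1 y * co r.2 y]) ?_ ?_
    (fun k => (h1 k).mem_nhds (h2 k)) (fun f hf h0 => ?_) hz'
  · rintro (r | r) - k <;> fin_cases k
    exacts [⟨(bm_co _).mul (bm_co _), (continuousAt_co _ ha).mul (continuousAt_co _ ha)⟩,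
      ⟨(bm_co _).mul (bm_co _), (continuousAt_co _ hb).mul (continuousAt_co _ hb)⟩,
      ⟨(bm_co _).mul (bm_co _), (continuousAt_co _ ha).mul (continuousAt_co _ ha)⟩,
      ⟨(bm_co _).mul (bm_co _), (continuousAt_co _ hb).mul (continuousAt_co _ hb)⟩]
  · simpa [Fintype.sum_sum_type, Fintype.sum_prod_type, sub_eq_add_neg, Finset.sum_add_distrib]
      using lagrange_ne H
  let c : Fin 3 → Bm := fun i => ⟨co i, bm_co i⟩
  have hc : ∀ i (f : Bm), ((c i * f : Bm) : V → ℂ) = fun a => f.1 a * co i a :=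
    fun i f => funext fun a => mul_comm _ _
  have key := alg c (fun t => W ![t.1, t.2.1, t.2.2])
    (fun f h g => by simpa only [hc] using r1 _ _ _ f.2 h.2 g.2)
    (fun f h g => by simpa only [hc] using r2 _ _ _ f.2 h.2 g.2)
    (S₀ := {f | ∀ y, y ∉ O 0 → f.1 y = 0}) (S₂ := {f | ∀ y, y ∉ O 1 → f.1 y = 0})
    (fun f hf i y hy => by simp only [hc, hf y hy, zero_mul])
    (fun f hf i y hy => by simp only [hc, hf y hy, zero_mul])
    (h := ⟨fun a => wt a * h a, bm_wt.mul hh⟩) (fun f hf g hg => ?_) i k ⟨f 0, hf 0⟩ (h0 0)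
    ⟨f 1, hf 1⟩ (h0 1)
  · simpa [Fintype.sum_sum_type, Fintype.sum_prod_type, sub_eq_add_neg, Finset.sum_add_distrib,
      c, Pi.mul_def] using key
  · have hP := isPoly1_mid hW f.2 g.2
    have b : ∀ j, BM fun a => co j a * co j a * (wt a * h a) := fun j =>
      ((bm_co j).mul (bm_co j)).mul (bm_wt.mul hh)
    have i0 : BM (ic ({0} : Set V)) := BM.ic (measurableSet_singleton _)
    have e1 := hP.add _ _ ((b 0).add (b 1)) (b 2)
    have e2 := hP.add _ _ (b 0) (b 1)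
    have e3 := hP.add _ _ hh (i0.const_mul (-h 0))
    have e4 := hP.smul (-h 0) _ i0
    have e5 : W ![f, h, g] = 0 := hn O h1 h3 ![f, g] (bm_vec2 f.2 g.2) fun k => by
      fin_cases k <;> assumption
    simp only [← sum_co_wt, Fin.sum_univ_three] at e3
    simp only [e2, e3, e4, e5, hz _ _ f.2 g.2, smul_zero, add_zero] at e1
    rw [Fin.sum_univ_three]
    exact e1.symm

end Mid

open Mid in
/-- **MID** -/
theorem mid {W : (Fin 3 → V → ℂ) → K →L[ℂ] K} (hW : IsPoly W)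
    (hc : ∀ f h g, BM f → BM h → BM g → W ![f, h, g] = W ![f, fun b => h (sg (nrm b)), g])
    (hz : ∀ f g, BM f → BM g → W ![f, ic {0}, g] = 0)
    (r1 : ∀ f h g, BM f → BM h → BM g →
      ∑ i, W ![fun a => f a * co i a, fun b => h b * co i b, g] = 0)
    (r2 : ∀ f h g, BM f → BM h → BM g →
      ∑ i, W ![f, fun b => h b * co i b, fun a => g a * co i a] = 0)
    (h1 : ∀ z ∈ supp fun f : Fin 2 → V → ℂ => W ![f 0, fun _ => 1, f 1], z 0 ⨯₃ z 1 = 0)
    {h : V → ℂ} (hh : BM h) :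
    ∀ z ∈ supp fun f : Fin 2 → V → ℂ => W ![f 0, h, f 1], z 0 ⨯₃ z 1 = 0 := by
  have := of_proj (mclass_nl hW) (nl_of_supp (isPoly2 hW BM.one) h1)
    (fun f hf hn i k => step hW hz r1 r2 hf hn i k) _
    (hh.comp (measurable_sg.comp measurable_nrm)) (hom0_sg_nrm h)
  refine Nl.supp fun O o1 o2 f hf h0 => ?_
  exact (hc _ _ _ (hf 0) hh (hf 1)).trans (this O o1 o2 f hf h0)

/-- diagonal lemma for projective POVMs -/
theorem diag_proj {P P' : POVM V K} (hP : P.Proj) (hP' : P'.Proj) {T : K →L[ℂ] K}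
    (hs : ∀ z ∈ supp fun f : Fin 2 → V → ℂ => P.E (f 0) * T * P'.E (f 1), z 0 ⨯₃ z 1 = 0)
    {u f g : V → ℂ} (hu : BM u) (hu0 : Hom0 u) (hf : BM f) (hg : BM g) :
    P.E (fun a => u a * f a) * T * P'.E g = P.E f * T * P'.E fun a => u a * g a := by
  have hcl : IsClosed {a : V | ‖a‖ = 1} := isClosed_eq continuous_norm continuous_const
  have h0 : ∀ {Q : POVM V K}, Q.Proj → ∀ f, BM f → (∀ y ∈ {a : V | ‖a‖ = 1}, f y = 0) →
      Q.E f = 0 := fun {Q} hQ f hf e =>
    (Q.E_congr_of_conc hcl.measurableSet hQ.sphere hf BM.zero e).trans Q.E_zero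
  refine (isPoly_two P P' T).diag (fun z hz => ?_) hu hu0.ev hf hg
  have hn : ∀ k, ‖z k‖ = 1 := mem_of_mem_supp (Z := fun _ => {a : V | ‖a‖ = 1}) (fun _ => hcl)
    (fun f hf i e => by
      fin_cases i
      · simp only [h0 hP _ (hf 0) e, zero_mul]
      · simp only [h0 hP' _ (hf 1) e, mul_zero]) hz
  obtain ⟨t, ht⟩ := exists_smul_of_cross_eq_zero
    (norm_ne_zero_iff.1 (by rw [hn 0]; exact one_ne_zero)) (hs z hz)
  have h1 := hn 1
  rw [ht, norm_smul, hn 0, mul_one, Real.norm_eq_abs] at h1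
  rcases eq_or_eq_neg_of_abs_eq h1 with rfl | rfl
  · exact Or.inl (by rw [ht, one_smul])
  · exact Or.inr (by rw [ht, neg_one_smul])

theorem Mid.mid_two {P P' : POVM V K} (hP : P.Proj) (hP' : P'.Proj) {D : (V → ℂ) → K →L[ℂ] K}
    (hW : IsPoly fun f : Fin 3 → V → ℂ => P.E (f 0) * D (f 1) * P'.E (f 2))
    (hc : ∀ h, BM h → D h = D fun b => h (sg (nrm b))) (hz : D (ic {0}) = 0)
    (r1 : ∀ f h, BM f → BM h → ∑ i, P.E (fun a => f a * co i a) * D (fun b => h b * co i b) = 0)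
    (r2 : ∀ h g, BM h → BM g → ∑ i, D (fun b => h b * co i b) * P'.E (fun a => g a * co i a) = 0)
    (h1 : Mid.Nl fun f : Fin 2 → V → ℂ => P.E (f 0) * D (fun _ => 1) * P'.E (f 1))
    {h u f g : V → ℂ} (hh : BM h) (hu : BM u) (hu0 : Hom0 u) (hf : BM f) (hg : BM g) :
    P.E (fun a => u a * f a) * D h * P'.E g = P.E f * D h * P'.E fun a => u a * g a := by
  refine diag_proj hP hP' (mid hW (fun f h g _ hh _ => ?_) (fun f g _ _ => ?_)
    (fun f h g hf hh _ => ?_) (fun f h g _ hh hg => ?_) h1.supp hh) hu hu0 hf hg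
  · exact congrArg (fun T => P.E f * T * P'.E g) (hc h hh)
  · change P.E f * D (ic {0}) * P'.E g = 0
    rw [hz, mul_zero, zero_mul]
  · change ∑ i, P.E (fun a => f a * co i a) * D (fun b => h b * co i b) * P'.E g = 0
    rw [← Finset.sum_mul, r1 f h hf hh, zero_mul]
  · change ∑ i, P.E f * D (fun b => h b * co i b) * P'.E (fun a => g a * co i a) = 0
    simp only [mul_assoc]
    rw [← Finset.mul_sum, r2 h g hh hg, mul_zero]

/-- an incident POVM commutes with a PVM -/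
theorem Inc.commute {P G : POVM V K} (h : Inc P G) (hP : P.Proj) (hG : G.Proj) (hp : P.IsPVM)
    {f g : V → ℂ} (hf : BM f) (hg : BM g) : Commute (P.E f) (G.E g) := by
  have := Mid.mid_two hP hP (D := G.E) (by simpa only [mul_one] using isPoly_three P G P 1 1)
    hG.conc hG.zero (fun f g hf hg => h.syn hP hG hf hg) (fun f g hf hg => h.symm.syn hG hP hf hg)
    (fun O _ o2 f hf h0 => ?_) hg (hf.comp (measurable_sg.comp measurable_nrm)) (hom0_sg_nrm f)
    BM.one BM.one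
  · simp only [mul_one, P.E_one, one_mul, Function.comp] at this
    rw [hP.conc f hf]
    exact this
  · beta_reduce
    rw [G.E_one, mul_one, ← hp _ _ (hf 0) (hf 1), ← P.E_zero]
    congr 1
    funext y
    by_cases h1 : y ∈ O 0
    · rw [h0 1 y fun h2 => o2 y h1 y h2 (cross_self y), mul_zero]
    · rw [h0 0 y h1, zero_mul]

/-- the difference of two incident POVMs intertwines -/
theorem Inc.inter {P P' G₁ G₂ : POVM V K} (hP : P.Proj) (hP' : P'.Proj) (h₁ : G₁.Proj)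
    (h₂ : G₂.Proj) (i₁ : Inc P G₁) (i₂ : Inc P G₂) (i₁' : Inc P' G₁) (i₂' : Inc P' G₂)
    {h u f g : V → ℂ} (hh : BM h) (hu : BM u) (hu0 : Hom0 u) (hf : BM f) (hg : BM g) :
    P.E (fun a => u a * f a) * (G₁.E h - G₂.E h) * P'.E g
      = P.E f * (G₁.E h - G₂.E h) * P'.E fun a => u a * g a := by
  refine Mid.mid_two hP hP' (D := fun h => G₁.E h - G₂.E h) ?_ (fun h hh => ?_) ?_
    (fun f g hf hg => ?_) (fun f g hf hg => ?_) (fun O _ _ f _ _ => ?_) hh hu hu0 hf hg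
  · simpa only [mul_one, mul_sub, sub_mul] using
      (isPoly_three P G₁ P' 1 1).sub (isPoly_three P G₂ P' 1 1)
  · rw [h₁.conc h hh, h₂.conc h hh]
  · rw [h₁.zero, h₂.zero, sub_zero]
  · simp only [mul_sub, Finset.sum_sub_distrib, i₁.syn hP h₁ hf hg, i₂.syn hP h₂ hf hg, sub_zero]
  · simp only [sub_mul, Finset.sum_sub_distrib, i₁'.symm.syn h₁ hP' hf hg,
      i₂'.symm.syn h₂ hP' hf hg, sub_zero]
  · simp only [G₁.E_one, G₂.E_one, sub_self, mul_zero, zero_mul]

/-- **TWO**: a POVM incident to two boundary PVMs is unique -/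
theorem Ind.Pre.two {I : Ind K} {Φ : V → POVM V K} (hΦ : I.Pre Φ) {x x' : V} (hx : x ⨯₃ x' ≠ 0)
    (hp : (Φ x).IsPVM) {G₁ G₂ : POVM V K} (h₁ : G₁.Proj) (h₂ : G₂.Proj) (i₁ : Inc (Φ x) G₁)
    (i₂ : Inc (Φ x) G₂) (i₁' : Inc (Φ x') G₁) (i₂' : Inc (Φ x') G₂) {h : V → ℂ} (hh : BM h) :
    G₁.E h = G₂.E h := by
  have hP := (hΦ.cov x fun e => hx (by simp [e])).proj
  have hP' := (hΦ.cov x' fun e => hx (by simp [e])).proj
  have key : ∀ u, BM u → Hom0 u → (G₁.E h - G₂.E h) * ((Φ x).E u - (Φ x').E u) = 0 :=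
    fun u hu hu0 => by
      have e := Inc.inter hP hP' h₁ h₂ i₁ i₂ i₁' i₂' hh hu hu0 BM.one BM.one
      simp only [mul_one, POVM.E_one, one_mul] at e
      rw [mul_sub, ← e, ((i₁.commute hP h₁ hp hu hh).sub_right (i₂.commute hP h₂ hp hu hh)).eq,
        sub_self]
  have := hΦ.eq_zero_of_sub hx (T := star (G₁.E h - G₂.E h)) fun u hu hu0 => by
    have e := congrArg star (key _ hu.conj fun z hz a => by simp only [hu0 z hz a])
    simpa only [star_mul, star_sub (POVM.E _ _) (POVM.E (Φ x') _), POVM.E_star _ hu.conj,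
      Complex.conj_conj, star_zero] using e
  exact sub_eq_zero.1 (star_eq_zero.1 this)

/-- **NI**: opposite pairs are not incident -/
theorem Ind.IsPro.not_inc {I I' : Ind K} {Φ Ψ : V → POVM V K} (hd : I.IsDual I') (hΦ : I.IsPro Φ)
    (hΨ : I'.IsPro Ψ) (hi : Ind.IsInc Φ Ψ) : ¬ Inc (Φ (ev 0)) (Ψ (ev 0)) := fun H => by
  have all : ∀ x y, x ≠ 0 → y ≠ 0 → Inc (Φ x) (Ψ y) := fun x y hx hy => by
    by_cases h0 : x ⬝ᵥ y = 0
    · exact hi.inc x y hx hy h0
    obtain ⟨g, g1, g2⟩ := exists_ac_opp (x := x) (y := (x ⬝ᵥ y)⁻¹ • y)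
      (by rw [dotProduct_smul, smul_eq_mul, inv_mul_cancel₀ h0])
    refine H.conj (I.U.mem_unitary g) (fun f hf => ?_) fun f hf => ?_
    · rw [URep.star_apply, hΦ.covU _ (ev_ne_zero 0) f hf, g1]
    · have := hΨ.covU _ (ev_ne_zero 0) f hf (dl g)
      rw [hd.U, hd.U, ← map_inv, dl_dl, dl_dl, g2, hΨ.scal y hy _ (inv_ne_zero h0) f hf] at this
      simpa only [URep.star_apply, one_mul, mul_one] using this
  have h01 : ev 0 ⨯₃ ev 1 ≠ 0 := fun e => by simpa [ev, cross_apply] using congrFun e 2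
  exact hΨ.pre.dist h01 fun f hf _ => hΦ.pre.two h01 (hΦ.pvm _) (hΨ.proj _) (hΨ.proj _)
    (all _ _ (ev_ne_zero _) (ev_ne_zero _)) (all _ _ (ev_ne_zero _) (ev_ne_zero _))
    (all _ _ (ev_ne_zero _) (ev_ne_zero _)) (all _ _ (ev_ne_zero _) (ev_ne_zero _)) hf

end Crest.Agent.N111
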