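import Crest.Agent.N111.D.Mid
import Crest.Agent.N111.D.Inc

/-! # Row 111: the boundary POVMs are PVMs; `ProStmt` (fill the proofs IN PLACE). -/

set_option autoImplicit false
set_option linter.unusedSectionVars false
set_option linter.unusedVariables false

namespace Crest.Agent.N111

open MeasureTheory Topology Filter Matrix
open scoped InnerProductSpace

variable {K : Type} [NormedAddCommGroup K] [InnerProductSpace ℂ K] [CompleteSpace K]

/-- PVMs are extremal -/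
theorem POVM.eq_of_mid {Y : Type} [MeasurableSpace Y] {M P Q : POVM Y K} (hM : M.IsPVM)
    (h : ∀ f, BM f → M.E f = (1 / 2 : ℂ) • (P.E f + Q.E f)) {f : Y → ℂ} (hf : BM f) :
    P.E f = Q.E f := by
  ext η
  have e1 := hM.norm_E_sq hf η
  have e2 := M.inner_ofReal hf.normSq η
  rw [h _ hf.normSq, _root_.smul_apply, _root_.add_apply,
    inner_smul_right, inner_add_right, P.inner_ofReal hf.normSq, Q.inner_ofReal hf.normSq] at e2
  have e3 : (1 / 2 : ℝ) * (∫ y, ‖f y‖ ^ 2 ∂P.ν η + ∫ y, ‖f y‖ ^ 2 ∂Q.ν η)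
      = ∫ y, ‖f y‖ ^ 2 ∂M.ν η := by
    apply Complex.ofReal_injective
    rw [← e2]
    push_cast
    ring
  have hP := P.norm_E_sq_le hf η
  have hQ := Q.norm_E_sq_le hf η
  rw [h _ hf, _root_.smul_apply, _root_.add_apply, norm_smul] at e1
  have e4 : ‖(1 / 2 : ℂ)‖ = 1 / 2 := by simp
  rw [e4] at e1
  have e5 := parallelogram_law_with_norm ℂ (P.E f η) (Q.E f η)
  have e6 : ‖P.E f η - Q.E f η‖ * ‖P.E f η - Q.E f η‖ ≤ 0 := by nlinarith
  exact sub_eq_zero.1 (norm_eq_zero.1 (mul_self_eq_zero.1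
    (le_antisymm e6 (mul_self_nonneg _))))

namespace Ind

variable {I I' : Ind K} {L : ℕ → ℝ} {Φ Ψ : V → POVM V K}

/-- incidence for one flag gives incidence for all flags -/
theorem Pre.inc_all (hd : I.IsDual I') (hΦ : I.Pre Φ) (hΨ : I'.Pre Ψ)
    (h : Inc (Φ (ev 0)) (Ψ (ev 2))) {x y : V} (hx : x ≠ 0) (hy : y ≠ 0) (hxy : x ⬝ᵥ y = 0) :
    Inc (Φ x) (Ψ y) := by
  obtain ⟨g, rfl, rfl⟩ := exists_ac_flag hx hy hxy
  refine h.conj (I.U.mem_unitary g) (fun f hf => ?_) fun f hf => ?_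
  · rw [URep.star_apply, hΦ.covU _ (ev_ne_zero 0) f hf]
  · rw [URep.star_apply, ← hΨ.covU _ (ev_ne_zero 2) f hf, hd.U_eq, hd.U_eq, map_inv dl, dl_dl]

theorem Pre.isPVM (hd : I.IsDual I') (hΦ : I.Pre Φ) (hΨ : I'.Pre Ψ)
    (h : Inc (Φ (ev 0)) (Ψ (ev 2))) {x : V} (hx : x ≠ 0) : (Φ x).IsPVM := by
  obtain ⟨g, rfl⟩ := exists_ac_ev hx 0
  have hy : ∀ i, ac (dl g) (ev i) ≠ 0 := fun i => ac_ne_zero _ (ev_ne_zero i)
  have hi : ∀ i : Fin 3, (0 : Fin 3) ≠ i → Inc (Φ (ac g (ev 0))) (Ψ (ac (dl g) (ev i))) :=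
    fun i h0 => hΦ.inc_all hd hΨ h hx (hy i) (by rw [ac_dot_ac_dl, ev_dot_ev, if_neg h0])
  have hP := (hΦ.cov _ hx).proj
  have key : ∀ u v, BM u → Hom0 u → BM v → (Φ (ac g (ev 0))).E (fun a => u a * v a)
      = (Φ (ac g (ev 0))).E u * (Φ (ac g (ev 0))).E v := by
    intro u v hu hu0 hv
    refine sub_eq_zero.1 (hΨ.eq_zero_of_sub (x := ac (dl g) (ev 1)) (x' := ac (dl g) (ev 2))
      ?_ fun k hk _ => ?_)
    · rw [ac_cross, Geo2.ev12]
      exact ac_ne_zero _ (ev_ne_zero 0)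
    · have e := fun {w : V → ℂ} (hw : BM w) => Inc.inter hP hP (hΨ.cov _ (hy 1)).proj
        (hΨ.cov _ (hy 2)).proj (hi 1 (by decide)) (hi 2 (by decide)) (hi 1 (by decide))
        (hi 2 (by decide)) hk hu hu0 (BM.const 1) hw
      have e1 := e (BM.const 1)
      have e2 := e hv
      simp only [mul_one, POVM.E_one, one_mul] at e1 e2
      rw [mul_sub, ← e2, ← mul_assoc, ← e1, sub_self]
  intro f k hf hk
  have hm : Measurable fun a : V => sg (nrm a) := measurable_sg.comp measurable_nrm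
  rw [hP.conc _ (hf.mul hk), hP.conc _ hf, hP.conc _ hk]
  exact key _ _ (hf.comp hm) (hom0_sg_nrm f) (hk.comp hm)

/-- limits along the flow are incident to the line `ev 2` -/
theorem IsLim.inc_ev2 {l : Filter ℕ} [l.NeBot] {P : POVM V K} (h : I.IsLim l P) (hl : l ≤ atTop)
    (hd : I.IsDual I') (hL : I.Tight L) (hΨ : I'.Pre Ψ) : Inc P (Ψ (ev 2)) := by
  have h01 : (0 : Fin 3) ≠ 1 := by decide
  refine h.inc hl hd hL (hΨ.cov _ (ev_ne_zero 2)) (fun f hf k => ?_) h01 fun f hf b => ?_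
  · rw [hd.symm.U_eq, dl_al]
    exact hΨ.commute (ev_ne_zero 2) (ac_al_of _ (by simp [ev])) hf
  · rw [hd.symm.U_eq, dl_tv]
    exact hΨ.commute (z := 1) (ev_ne_zero 2) (by rw [ac_tv]; simp [ev]) hf

variable (I) in
/-- covariant, invariant under the stabiliser of the point `ev 0`, incident to `Gm` -/
structure Good (Gm P : POVM V K) : Prop where
  cov : I.Cov P
  inv : ∀ (q : G) (z : ℝ), ac q (ev 0) = z • ev 0 → ∀ f, BM f → I.U q * P.E f * I.U q⁻¹ = P.E f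
  inc : Inc P Gm

theorem Good.isPVM {P : POVM V K} (h : I.Good (Ψ (ev 2)) P) (hd : I.IsDual I') (hΨ : I'.Pre Ψ) :
    P.IsPVM := by
  obtain ⟨hp, e⟩ := h.cov.pre h.inv
  have := hp.isPVM hd hΨ (h.inc.conj (u := 1) (one_mem _)
    (fun f hf => by rw [star_one, one_mul, mul_one, e f hf])
    fun f hf => by rw [star_one, one_mul, mul_one]) (ev_ne_zero 0)
  intro f k hf hk
  rw [← e _ (hf.mul hk), ← e _ hf, ← e _ hk, this f k hf hk]

theorem Good.mid {Gm M P Q : POVM V K} (hP : I.Good Gm P) (hQ : I.Good Gm Q) (hG : Gm.Proj)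
    (h : ∀ f, M.E f = (1 / 2 : ℂ) • (P.E f + Q.E f)) : I.Good Gm M := by
  have hM : M.Proj := ⟨fun f hf => by rw [h, h, ← hP.cov.proj.conc f hf, ← hQ.cov.proj.conc f hf],
    by rw [h, hP.cov.proj.zero, hQ.cov.proj.zero, add_zero, smul_zero]⟩
  refine ⟨⟨hM, fun f hf a ha => ?_, fun f hf h0 ν => ?_⟩, fun q z hq f hf => ?_,
    inc_of_ni hM hG fun f k hf hf0 _ hk hk0 _ θ hθ hni => ?_⟩
  · rw [h, mul_smul_comm, smul_mul_assoc, mul_add, add_mul, hP.cov.mem f hf a ha,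
      hQ.cov.mem f hf a ha]
  · rw [h, h, mul_smul_comm, smul_mul_assoc, mul_add, add_mul, hP.cov.covρ f hf h0,
      hQ.cov.covρ f hf h0]
  · rw [h, mul_smul_comm, smul_mul_assoc, mul_add, add_mul, hP.inv q z hq f hf,
      hQ.inv q z hq f hf]
  · rw [h, smul_mul_assoc, add_mul, hP.inc.mul_eq_zero hP.cov.proj hG hf hk hf0 hk0 hθ hni,
      hQ.inc.mul_eq_zero hQ.cov.proj hG hf hk hf0 hk0 hθ hni, add_zero, smul_zero]

theorem Good.uniq {P Q : POVM V K} (hP : I.Good (Ψ (ev 2)) P) (hQ : I.Good (Ψ (ev 2)) Q)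
    (hd : I.IsDual I') (hΨ : I'.Pre Ψ) {f : V → ℂ} (hf : BM f) : P.E f = Q.E f := by
  obtain ⟨M, hM⟩ := P.exists_mid Q
  exact POVM.eq_of_mid ((hP.mid hQ (hΨ.cov _ (ev_ne_zero 2)).proj hM).isPVM hd hΨ)
    (fun f _ => hM f) hf

theorem IsLim.good {l : Filter ℕ} [l.NeBot] {P : POVM V K} (h : I.IsLim l P) (hl : l ≤ atTop)
    (hd : I.IsDual I') (hL : I.Tight L) (hΨ : I'.Pre Ψ) : I.Good (Ψ (ev 2)) P :=
  ⟨h.cov hl hL, h.inv hl hL, h.inc_ev2 hl hd hL hΨ⟩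

/-- existence of the boundary PVM, given any covariant family of lines -/
theorem exists_isPro (hd : I.IsDual I') (hL : I.Tight L) (hΨ : I'.Pre Ψ) : ∃ Φ, I.IsPro Φ := by
  obtain ⟨P, hP⟩ := I.exists_isLim (Ultrafilter.of atTop)
  have hg := hP.good (Ultrafilter.of_le _) hd hL hΨ
  have hp := hg.isPVM hd hΨ
  have hlim : I.IsLim atTop P := ⟨hP.proj, fun f hf h0 hc w v =>
    (tendsto_iff_ultrafilter _ _ _).2 fun l hl => by
      obtain ⟨Q, hQ⟩ := I.exists_isLim l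
      rw [hg.uniq (hQ.good hl hd hL hΨ) hd hΨ hf]
      exact hQ.lim f hf h0 hc w v⟩
  obtain ⟨hpre, e⟩ := hg.cov.pre hg.inv
  refine ⟨I.fam P, fun x => hp.conj _ _ (I.U.mem_unitary _).1,
    fun x => (hP.proj.conj _ _).conc, fun x => (hP.proj.conj _ _).zero, hpre.covU, hpre.scal,
    fun x hx => (hpre.cov x hx).covρ, fun S hS f hf => ?_, fun f hf h0 hc η => ?_⟩
  · rw [e f hf]
    exact hlim.gen le_rfl hS hf
  · rw [e f hf]
    exact hlim.strong hp hf h0 hc η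

end Ind

theorem pro : ProStmt := by
  intro K _ _ _ I I' L hd hL hL'
  obtain ⟨P, hP⟩ := I'.exists_isLim (Ultrafilter.of atTop)
  obtain ⟨Φ, hΦ⟩ := Ind.exists_isPro hd hL ((hP.cov (Ultrafilter.of_le _) hL').pre
    (hP.inv (Ultrafilter.of_le _) hL')).1
  obtain ⟨Ψ, hΨ⟩ := Ind.exists_isPro hd.symm hL' hΦ.pre
  have h := fun {x y : V} => hΦ.pre.inc_all (x := x) (y := y) hd hΨ.pre
    (hΦ.isLim.inc_ev2 le_rfl hd hL hΨ.pre)
  exact ⟨Φ, Ψ, hΦ, hΨ, fun x y hx hy hxy => h hx hy hxy, fun x y hx hy hxy f k hf hk =>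
    (h hx hy hxy).commute (hΦ.proj x) (hΨ.proj y) (hΦ.pvm x) hf hk⟩

end Crest.Agent.N111
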