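import Crest.Agent.N111.D.Cov

/-! # Row 111: Herz synthesis for incident POVMs. -/

set_option autoImplicit false
set_option linter.unusedSectionVars false
set_option linter.unusedVariables false

namespace Crest.Agent.N111

open MeasureTheory Topology Filter Matrix
open scoped InnerProductSpace

variable {K : Type} [NormedAddCommGroup K] [InnerProductSpace ℂ K] [CompleteSpace K]

namespace Syn

theorem abs_le_one {a : V} (h : ‖a‖ = 1) (i : Fin 3) : |a i| ≤ 1 :=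
  h ▸ (Real.norm_eq_abs (a i) ▸ norm_le_pi_norm a i)

theorem abs_sub_lt_of_floor {δ x y : ℝ} (hδ : 0 < δ) (h : ⌊x / δ⌋ = ⌊y / δ⌋) : |x - y| < δ := by
  have := Int.abs_sub_lt_one_of_floor_eq_floor h
  rwa [← sub_div, abs_div, abs_of_pos hδ, div_lt_one hδ] at this

theorem floor_close {δ x y : ℝ} (hδ : 0 < δ) (h : |x - y| ≤ 40 * δ) :
    ⌊x / δ⌋ ∈ Finset.Icc (⌊y / δ⌋ - 40) (⌊y / δ⌋ + 40) := by
  obtain ⟨h1, h2⟩ := abs_le.1 h
  have e1 : y / δ - (40 : ℤ) ≤ x / δ := by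
    rw [le_div_iff₀ hδ, sub_mul, div_mul_cancel₀ _ hδ.ne']; push_cast; linarith
  have e2 : x / δ ≤ y / δ + (40 : ℤ) := by
    rw [div_le_iff₀ hδ, add_mul, div_mul_cancel₀ _ hδ.ne']; push_cast; linarith
  refine Finset.mem_Icc.2 ⟨?_, ?_⟩
  · simpa only [Int.floor_sub_intCast] using Int.floor_mono e1
  · simpa only [Int.floor_add_intCast] using Int.floor_mono e2

theorem floor_mem {δ x : ℝ} (hδ : 0 < δ) (h : |x| ≤ 1) :
    ⌊x / δ⌋ ∈ Finset.Icc ⌊-1 / δ⌋ ⌊1 / δ⌋ :=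
  Finset.mem_Icc.2 ⟨Int.floor_mono (div_le_div_of_nonneg_right (abs_le.1 h).1 hδ.le),
    Int.floor_mono (div_le_div_of_nonneg_right (abs_le.1 h).2 hδ.le)⟩

theorem dot_perm (σ : Equiv.Perm (Fin 3)) (a b : V) :
    a ⬝ᵥ b = a (σ 0) * b (σ 0) + a (σ 1) * b (σ 1) + a (σ 2) * b (σ 2) := by
  rw [dotProduct, ← Equiv.sum_comp σ, Fin.sum_univ_three]

theorem exists_perm {δ : ℝ} {a b : V} (ha : ‖a‖ = 1) (hb : ‖b‖ = 1) (h : |a ⬝ᵥ b| ≤ 4 * δ) :
    ∃ σ : Equiv.Perm (Fin 3), |a (σ 0)| = 1 ∧ (1 / 4 ≤ |b (σ 2)| ∨ 1 / 8 ≤ δ) := by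
  obtain ⟨i, hi⟩ := exists_abs_eq_norm a
  obtain ⟨k, hk⟩ := exists_abs_eq_norm b
  rw [ha] at hi
  rw [hb] at hk
  have key : ∀ i m : Fin 3, i ≠ m → ∃ σ : Equiv.Perm (Fin 3), σ 0 = i ∧ σ 2 = m := by decide
  by_cases h1 : ∃ m, i ≠ m ∧ 1 / 4 ≤ |b m|
  · obtain ⟨m, him, hm⟩ := h1
    obtain ⟨σ, rfl, rfl⟩ := key i m him
    exact ⟨σ, hi, Or.inl hm⟩
  · push Not at h1
    obtain ⟨m, him⟩ := exists_ne i
    obtain ⟨σ, rfl, -⟩ := key i m him.symm
    refine ⟨σ, hi, Or.inr ?_⟩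
    have hik : σ 0 = k := by
      by_contra hne
      linarith [h1 k hne]
    subst hik
    have b1 := h1 (σ 1) (σ.injective.ne (by decide))
    have b2 := h1 (σ 2) (σ.injective.ne (by decide))
    have e0 : |a (σ 0) * b (σ 0)| = 1 := by rw [abs_mul, hi, hk, mul_one]
    have e1 : |a (σ 1) * b (σ 1)| ≤ 1 / 4 := by
      rw [abs_mul]; nlinarith [abs_le_one ha (σ 1), abs_nonneg (a (σ 1)), abs_nonneg (b (σ 1))]
    have e2 : |a (σ 2) * b (σ 2)| ≤ 1 / 4 := by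
      rw [abs_mul]; nlinarith [abs_le_one ha (σ 2), abs_nonneg (a (σ 2)), abs_nonneg (b (σ 2))]
    rw [dot_perm σ] at h
    obtain ⟨h2, h3⟩ := abs_le.1 h
    obtain ⟨e3, e4⟩ := abs_le.1 e1
    obtain ⟨e5, e6⟩ := abs_le.1 e2
    rcases abs_eq (zero_le_one' ℝ) |>.1 e0 with e | e <;> linarith

theorem third_close {δ : ℝ} (hδ : 0 < δ) {a a' b : V} (ha : ‖a‖ = 1) (ha' : ‖a'‖ = 1)
    (hb : ‖b‖ = 1) (h : |a ⬝ᵥ b| ≤ 4 * δ) (h' : |a' ⬝ᵥ b| ≤ 4 * δ) {σ : Equiv.Perm (Fin 3)}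
    (h0 : |a (σ 0) - a' (σ 0)| < δ) (h1 : |a (σ 1) - a' (σ 1)| < δ)
    (h2 : 1 / 4 ≤ |b (σ 2)| ∨ 1 / 8 ≤ δ) : |a (σ 2) - a' (σ 2)| ≤ 40 * δ := by
  rcases h2 with h2 | h2
  · have e0 : |(a (σ 0) - a' (σ 0)) * b (σ 0)| ≤ δ := by
      rw [abs_mul]; nlinarith [abs_le_one hb (σ 0), abs_nonneg (b (σ 0))]
    have e1 : |(a (σ 1) - a' (σ 1)) * b (σ 1)| ≤ δ := by
      rw [abs_mul]; nlinarith [abs_le_one hb (σ 1), abs_nonneg (b (σ 1))]
    have e2 : |(a (σ 2) - a' (σ 2)) * b (σ 2)| ≤ 10 * δ := by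
      rw [dot_perm σ] at h h'
      obtain ⟨h2, h3⟩ := abs_le.1 h
      obtain ⟨h4, h5⟩ := abs_le.1 h'
      obtain ⟨e3, e4⟩ := abs_le.1 e0
      obtain ⟨e5, e6⟩ := abs_le.1 e1
      exact abs_le.2 ⟨by linarith, by linarith⟩
    rw [abs_mul] at e2
    nlinarith [abs_nonneg (a (σ 2) - a' (σ 2))]
  · obtain ⟨e1, e2⟩ := abs_le.1 (abs_le_one ha (σ 2))
    obtain ⟨e3, e4⟩ := abs_le.1 (abs_le_one ha' (σ 2))
    exact abs_le.2 ⟨by linarith, by linarith⟩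

theorem card_Icc_le {δ : ℝ} (hδ : 0 < δ) (hδ1 : δ ≤ 1) :
    ((Finset.Icc ⌊-1 / δ⌋ ⌊1 / δ⌋).card : ℝ) ≤ 4 / δ := by
  have h1 : 1 ≤ 1 / δ := by rw [le_div_iff₀ hδ]; linarith
  have h2 := Int.floor_le (1 / δ)
  have h3 := Int.lt_floor_add_one (-1 / δ)
  have h4 : ⌊-1 / δ⌋ ≤ ⌊1 / δ⌋ + 1 :=
    (Int.floor_mono (div_le_div_of_nonneg_right (by norm_num : (-1 : ℝ) ≤ 1) hδ.le)).trans
      (by omega)
  have h5 : (((Finset.Icc ⌊-1 / δ⌋ ⌊1 / δ⌋).card : ℤ) : ℝ) = (⌊1 / δ⌋ + 1 - ⌊-1 / δ⌋ : ℤ) := by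
    rw [Int.card_Icc_of_le _ _ h4]
  push_cast at h5
  have h6 : -1 / δ = -(1 / δ) := by ring
  have h7 : 4 / δ = 4 * (1 / δ) := by ring
  linarith

end Syn

open Syn in
/-- counting the cells of the unit sphere near a plane -/
theorem card_cells_le : ∃ C : ℝ, ∀ δ : ℝ, 0 < δ → δ ≤ 1 → ∀ b : V, ‖b‖ = 1 →
    ∀ s : Finset (Fin 3 → ℤ), (∀ c ∈ s, ∃ a : V, ‖a‖ = 1 ∧ (∀ i, ⌊a i / δ⌋ = c i) ∧
      |a ⬝ᵥ b| ≤ 4 * δ) → (s.card : ℝ) ≤ C / δ := by
  classical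
  refine ⟨81 * 6 * 2 * 4, fun δ hδ hδ1 b hb s hs => ?_⟩
  choose! a ha hc hd using hs
  choose! σ hσ hσ' using fun c (h : c ∈ s) => exists_perm (ha c h) hb (hd c h)
  have h1 := Finset.card_le_mul_card_image_of_maps_to (s := s)
    (f := fun c => (σ c, c (σ c 0), c (σ c 1)))
    (t := Finset.univ ×ˢ ({⌊1 / δ⌋, ⌊-1 / δ⌋} ×ˢ Finset.Icc ⌊-1 / δ⌋ ⌊1 / δ⌋))
    (fun c h => by
      refine Finset.mem_product.2 ⟨Finset.mem_univ _, Finset.mem_product.2 ⟨?_, ?_⟩⟩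
      · simp only [← hc c h]
        rcases (abs_eq (zero_le_one' ℝ)).1 (hσ c h) with e | e <;> simp [e]
      · simp only [← hc c h]
        exact floor_mem hδ (abs_le_one (ha c h) _)) 81
    (fun q _ => by
      rcases (s.filter fun c => (σ c, c (σ c 0), c (σ c 1)) = q).eq_empty_or_nonempty with
        e | ⟨c₀, h₁⟩
      · rw [e]; simp
      obtain ⟨h₀, hq₀⟩ := Finset.mem_filter.1 h₁
      subst hq₀
      have hq : ∀ c ∈ s.filter fun c => (σ c, c (σ c 0), c (σ c 1))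
          = (σ c₀, c₀ (σ c₀ 0), c₀ (σ c₀ 1)),
          c ∈ s ∧ c (σ c₀ 0) = c₀ (σ c₀ 0) ∧ c (σ c₀ 1) = c₀ (σ c₀ 1) := fun c h => by
        obtain ⟨h, e⟩ := Finset.mem_filter.1 h
        simp only [Prod.mk.injEq] at e
        obtain ⟨e0, e1, e2⟩ := e
        rw [e0] at e1 e2
        exact ⟨h, e1, e2⟩
      refine (Finset.card_le_card_of_injOn (t := Finset.Icc (c₀ (σ c₀ 2) - 40) (c₀ (σ c₀ 2) + 40))
        (fun c => c (σ c₀ 2)) (fun c h => ?_) fun c h c' h' e => ?_).trans ?_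
      · obtain ⟨h, e0, e1⟩ := hq c h
        rw [← hc c h, ← hc c₀ h₀] at e0 e1
        have := floor_close hδ (third_close hδ (ha c h) (ha c₀ h₀) hb (hd c h) (hd c₀ h₀)
          (abs_sub_lt_of_floor hδ e0) (abs_sub_lt_of_floor hδ e1) (hσ' c₀ h₀))
        rwa [hc c h, hc c₀ h₀] at this
      · obtain ⟨h, e0, e1⟩ := hq c h
        obtain ⟨h', e0', e1'⟩ := hq c' h'
        funext i
        obtain ⟨t, rfl⟩ := (σ c₀).surjective i
        fin_cases t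
        exacts [e0.trans e0'.symm, e1.trans e1'.symm, e]
      · rw [Int.card_Icc]; omega)
  have h2 : ((({⌊1 / δ⌋, ⌊-1 / δ⌋} : Finset ℤ).card : ℕ) : ℝ) ≤ 2 := by
    exact_mod_cast Finset.card_le_two
  have h3 := card_Icc_le hδ hδ1
  rw [Finset.card_product, Finset.card_product, Finset.card_univ, Fintype.card_perm,
    Fintype.card_fin] at h1
  have h4 : (s.card : ℝ) ≤ 81 * (6 * ((({⌊1 / δ⌋, ⌊-1 / δ⌋} : Finset ℤ).card : ℝ)
      * (Finset.Icc ⌊-1 / δ⌋ ⌊1 / δ⌋).card)) := by exact_mod_cast h1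
  have h5 := mul_le_mul h2 h3 (Nat.cast_nonneg _) (by norm_num)
  calc _ ≤ 81 * (6 * (2 * (4 / δ))) := h4.trans (by linarith)
    _ = _ := by ring

namespace Syn

/-- the Herz estimate -/
theorem herz_le {κ : Type} (P G : POVM V K) (s : Finset κ) {e w : κ → V → ℂ}
    (he : ∀ k, BM (e k)) (hw : ∀ k, BM (w k)) {B B' ε : ℝ} (hB : 0 ≤ B) (hε : 0 ≤ ε)
    (h : ∀ y, ∑ k ∈ s, ‖e k y‖ ^ 2 ≤ B) (h' : ∀ y, ∑ k ∈ s, ‖w k y‖ ^ 2 ≤ B')
    (hle : B * B' ≤ ε ^ 2) : ‖∑ k ∈ s, P.E (e k) * G.E (w k)‖ ≤ ε := by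
  refine ContinuousLinearMap.opNorm_le_bound _ hε fun η => ?_
  refine (pow_le_pow_iff_left₀ (norm_nonneg _) (by positivity) two_ne_zero).1 ?_
  rw [_root_.sum_apply, mul_pow]
  refine ((P.norm_sum_E_sq_le s (fun k _ => he k) hB h fun k => G.E (w k) η).trans
    (mul_le_mul_of_nonneg_left (G.sum_norm_E_sq_le s (fun k _ => hw k) h' η) hB)).trans ?_
  rw [← mul_assoc]
  exact mul_le_mul_of_nonneg_right hle (sq_nonneg _)

theorem sum_le_card {κ : Type} (s : Finset κ) {φ : κ → ℂ} (q : κ → Prop) [DecidablePred q]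
    {B n : ℝ} (h0 : ∀ k, ¬ q k → φ k = 0) (h : ∀ k, q k → ‖φ k‖ ≤ B)
    (hn : ((s.filter q).card : ℝ) ≤ n) : ∑ k ∈ s, ‖φ k‖ ^ 2 ≤ n * B ^ 2 := by
  rw [← Finset.sum_filter_of_ne (p := q) fun k _ hk => by
    by_contra hq
    exact hk (by rw [h0 k hq]; simp)]
  refine (Finset.sum_le_card_nsmul _ _ (B ^ 2) fun k hk =>
    pow_le_pow_left₀ (norm_nonneg _) (h k (Finset.mem_filter.1 hk).2) 2).trans ?_
  rw [nsmul_eq_mul]
  exact mul_le_mul_of_nonneg_right hn (sq_nonneg _)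

/-- uniformly non-incident boxes are null -/
theorem null {P G : POVM V K} (h : Inc P G) {p : V} {δ : ℝ} {u w : V → ℂ} (hu : BM u) (hw : BM w)
    (hu0 : ∀ a, u a ≠ 0 → ‖a - p‖ ≤ δ) (hw0 : ∀ b, w b ≠ 0 → ‖b‖ = 1 ∧ 4 * δ < |p ⬝ᵥ b|) :
    P.E u * G.E w = 0 := by
  have hO : IsOpen {b : V | ‖b‖ < 4 / 3 ∧ 4 * δ < |p ⬝ᵥ b|} :=
    (isOpen_lt continuous_norm continuous_const).inter
      (isOpen_lt continuous_const (continuous_const.dotProduct continuous_id).abs)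
  have h1 := (isPoly_word ![P, G]).nullOn_of_disjoint
    (O := ![Metric.closedBall p δ, {b : V | ‖b‖ < 4 / 3 ∧ 4 * δ < |p ⬝ᵥ b|}])
    (Fin.forall_fin_two.2 ⟨isSigmaCompact_of_isClosed Metric.isClosed_closedBall,
      isSigmaCompact_of_isOpen hO⟩)
    (fun z hz hs => by
      have h0 : ‖z 0 - p‖ ≤ δ := mem_closedBall_iff_norm.1 (hz 0)
      obtain ⟨h1, h2⟩ : ‖z 1‖ < 4 / 3 ∧ 4 * δ < |p ⬝ᵥ z 1| := hz 1
      have h3 := abs_dot_le (z 0 - p) (z 1)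
      rw [sub_dotProduct, h z hs, zero_sub, abs_neg] at h3
      nlinarith [norm_nonneg (z 0 - p), norm_nonneg (z 1)])
    ![u, w] (Fin.forall_fin_two.2 ⟨hu, hw⟩) (Fin.forall_fin_two.2
      ⟨fun a ha => by_contra fun hne => ha (mem_closedBall_iff_norm.2 (hu0 a hne)),
        fun b hb => by_contra fun hne => hb ⟨by rw [(hw0 b hne).1]; norm_num, (hw0 b hne).2⟩⟩)
  simpa [word] using h1

open Classical in
/-- the cell decomposition of the unit sphere -/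
theorem exists_cells : ∃ C : ℝ, 0 ≤ C ∧ ∀ δ : ℝ, 0 < δ → δ ≤ 1 →
    ∃ (s : Finset (Fin 3 → ℤ)) (A : (Fin 3 → ℤ) → Set V) (p : (Fin 3 → ℤ) → V),
      (∀ c, MeasurableSet (A c)) ∧ (∀ a, ‖a‖ = 1 → ∑ c ∈ s, ic (A c) a = 1) ∧
      (∀ c, ∀ a ∈ A c, ‖a‖ = 1 ∧ ‖a - p c‖ ≤ δ) ∧
      (∀ a, ((s.filter fun c => a ∈ A c).card : ℝ) ≤ 1) ∧
      ∀ b, ((s.filter fun c => ‖b‖ = 1 ∧ |p c ⬝ᵥ b| ≤ 4 * δ).card : ℝ) ≤ C / δ := by
  obtain ⟨C, hC⟩ := card_cells_le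
  refine ⟨max C 0, le_max_right _ _, fun δ hδ hδ1 => ?_⟩
  let A : (Fin 3 → ℤ) → Set V := fun c => {a | ‖a‖ = 1 ∧ ∀ i, ⌊a i / δ⌋ = c i}
  have hp : ∀ c, ∃ p, (A c).Nonempty → p ∈ A c := fun c => by
    by_cases h : (A c).Nonempty
    exacts [⟨h.some, fun _ => h.some_mem⟩, ⟨0, fun h' => (h h').elim⟩]
  choose p hp using hp
  refine ⟨(Fintype.piFinset fun _ => Finset.Icc ⌊-1 / δ⌋ ⌊1 / δ⌋).filter fun c => (A c).Nonempty,
    A, p, fun c => ?_, fun a ha => ?_, fun c a ha => ⟨ha.1, ?_⟩, fun a => ?_, fun b => ?_⟩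
  · refine (measurableSet_eq_fun measurable_norm measurable_const).inter ?_
    have hm : ∀ i, Measurable fun a : V => ⌊a i / δ⌋ := fun i =>
      Measurable.floor (f := fun a : V => a i / δ) (by fun_prop)
    exact Measurable.setOf (Measurable.forall fun i => (hm i).eq measurable_const)
  · rw [Finset.sum_eq_single_of_mem fun i => ⌊a i / δ⌋]
    · exact ic_of_mem ⟨ha, fun _ => rfl⟩
    · exact Finset.mem_filter.2 ⟨Fintype.mem_piFinset.2 fun i => floor_mem hδ (abs_le_one ha i),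
        a, ha, fun _ => rfl⟩
    · exact fun c _ hc => ic_of_notMem fun h => hc (funext h.2).symm
  · exact (pi_norm_le_iff_of_nonneg hδ.le).2 fun i =>
      (abs_sub_lt_of_floor hδ ((ha.2 i).trans ((hp c ⟨a, ha⟩).2 i).symm)).le
  · refine Nat.cast_le_one.2 (Finset.card_le_one.2 fun c h c' h' => ?_)
    simp only [Finset.mem_filter] at h h'
    exact (funext h.2.2).symm.trans (funext h'.2.2)
  · by_cases hb : ‖b‖ = 1
    · refine (hC δ hδ hδ1 b hb _ fun c h => ?_).trans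
        (div_le_div_of_nonneg_right (le_max_left _ _) hδ.le)
      obtain ⟨h1, h2⟩ := Finset.mem_filter.1 h
      have h3 := hp c (Finset.mem_filter.1 h1).2
      exact ⟨p c, h3.1, h3.2, h2.2⟩
    · simp only [hb, false_and, Finset.filter_false, Finset.card_empty, Nat.cast_zero]
      positivity

theorem co_of_norm {a : V} (h : ‖a‖ = 1) (i : Fin 3) : co i a = (a i : ℝ) := by
  simp [co, nrm, h]

end Syn

open Syn in
/-- **SYN** -/
theorem Inc.syn {P G : POVM V K} (h : Inc P G) (hP : P.Proj) (hG : G.Proj) {f g : V → ℂ}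
    (hf : BM f) (hg : BM g) :
    ∑ i, P.E (fun a => f a * co i a) * G.E (fun b => g b * co i b) = 0 := by
  classical
  obtain ⟨C, hC0, hC⟩ := exists_cells
  obtain ⟨F, hF0, hF⟩ := hf.exists_nonneg
  obtain ⟨D, hD0, hD⟩ := hg.exists_nonneg
  refine norm_le_zero_iff.1 (le_of_forall_pos_le_add fun ε hε => ?_)
  obtain ⟨δ, hδ, hδ1, hδε⟩ : ∃ δ : ℝ, 0 < δ ∧ δ ≤ 1 ∧ 16 * F ^ 2 * D ^ 2 * C * δ ≤ (ε / 4) ^ 2 := by
    obtain ⟨δ, hδ, h1⟩ := exists_eps (x := 16 * F ^ 2 * D ^ 2 * C) (c := (ε / 4) ^ 2)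
      (by positivity) (by positivity)
    exact ⟨min δ 1, lt_min hδ one_pos, min_le_right _ _,
      (mul_le_mul_of_nonneg_left (min_le_left _ _) (by positivity)).trans h1⟩
  obtain ⟨s, A, p, hA, hA1, hAp, hcA, hcN⟩ := hC δ hδ hδ1
  have hS : MeasurableSet {a : V | ‖a‖ = 1} := measurableSet_eq_fun measurable_norm measurable_const
  have hm : ∀ c, Measurable fun b : V => |p c ⬝ᵥ b| := fun c =>
    (continuous_const.dotProduct continuous_id).abs.measurable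
  let N : (Fin 3 → ℤ) → Set V := fun c => {b | ‖b‖ = 1 ∧ |p c ⬝ᵥ b| ≤ 4 * δ}
  let N' : (Fin 3 → ℤ) → Set V := fun c => {b | ‖b‖ = 1 ∧ 4 * δ < |p c ⬝ᵥ b|}
  have hN : ∀ c, BM (ic (N c)) := fun c => BM.ic (hS.inter (measurableSet_le (hm c) measurable_const))
  have hN' : ∀ c, BM (ic (N' c)) := fun c =>
    BM.ic (hS.inter (measurableSet_lt measurable_const (hm c)))
  let e : Fin 3 → (Fin 3 → ℤ) → V → ℂ := fun i c a => ic (A c) a * (f a * (co i a - (p c i : ℝ)))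
  let e₀ : (Fin 3 → ℤ) → V → ℂ := fun c a => ic (A c) a * f a
  let w : Fin 3 → (Fin 3 → ℤ) → V → ℂ := fun i c b => ic (N c) b * (g b * co i b)
  let w₀ : (Fin 3 → ℤ) → V → ℂ := fun c b => ∑ i, (p c i : ℝ) * w i c b
  have he : ∀ i c, BM (e i c) := fun i c =>
    (BM.ic (hA c)).mul (hf.mul ((bm_co i).sub (BM.const _)))
  have he₀ : ∀ c, BM (e₀ c) := fun c => (BM.ic (hA c)).mul hf
  have hw : ∀ i c, BM (w i c) := fun i c => (hN c).mul (hg.mul (bm_co i))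
  have hw₀ : ∀ c, BM (w₀ c) := fun c => BM.sum _ fun i _ => (hw i c).const_mul _
  have E0 : ∀ c, G.E (w₀ c) = ∑ i, ((p c i : ℝ) : ℂ) • G.E (w i c) := fun c => by
    rw [G.E_sum _ fun i _ => (hw i c).const_mul _]
    exact Finset.sum_congr rfl fun i _ => G.E_smul _ (hw i c)
  have E1 : ∀ i, P.E (fun a => f a * co i a) * G.E (fun b => g b * co i b)
      = ∑ c ∈ s, (P.E (e i c) + ((p c i : ℝ) : ℂ) • P.E (e₀ c)) * G.E (w i c) := fun i => by
    have b := fun c => (BM.ic (hA c)).mul (hf.mul (bm_co i))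
    rw [P.E_congr_of_conc hS hP.sphere (hf.mul (bm_co i)) (BM.sum s fun c _ => b c)
      (fun a ha => by rw [← Finset.sum_mul, hA1 a ha, one_mul]), P.E_sum s fun c _ => b c,
      Finset.sum_mul]
    refine Finset.sum_congr rfl fun c _ => ?_
    have b' := (hN' c).mul (hg.mul (bm_co i))
    rw [G.E_congr_of_conc hS hG.sphere (hg.mul (bm_co i)) ((hw i c).add b') (fun y hy => by
      by_cases hy' : |p c ⬝ᵥ y| ≤ 4 * δ
      · simp only [w]
        rw [ic_of_mem (show y ∈ N c from ⟨hy, hy'⟩),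
          ic_of_notMem (show y ∉ N' c from fun h => h.2.not_ge hy'), one_mul, zero_mul, add_zero]
      · simp only [w]
        rw [ic_of_notMem (show y ∉ N c from fun h => hy' h.2),
          ic_of_mem (show y ∈ N' c from ⟨hy, not_le.1 hy'⟩), one_mul, zero_mul, zero_add]),
      G.E_add (hw i c) b', mul_add, null h (p := p c) (δ := δ) (b c) b'
        (fun a ha => (hAp c a (by_contra fun h => ha (by simp [h]))).2)
        (fun y hy => show y ∈ N' c from by_contra fun h => hy (by simp [h])), add_zero,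
      ← P.E_smul _ (he₀ c), ← P.E_add (he i c) ((he₀ c).const_mul _)]
    congr 2
    funext a
    simp only [e, e₀]
    ring
  have E2 : ∑ i, P.E (fun a => f a * co i a) * G.E (fun b => g b * co i b)
      = ∑ i, ∑ c ∈ s, P.E (e i c) * G.E (w i c) + ∑ c ∈ s, P.E (e₀ c) * G.E (w₀ c) := by
    simp only [E0, E1, add_mul, Finset.sum_add_distrib, Finset.mul_sum, smul_mul_assoc,
      mul_smul_comm]
    rw [Finset.sum_comm (s := s)]
  have hCδ : C / δ * δ ^ 2 = C * δ := by field_simp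
  have B1 : ∀ i, ‖∑ c ∈ s, P.E (e i c) * G.E (w i c)‖ ≤ ε / 4 := fun i =>
    herz_le P G s (he i) (hw i) (B := 1 * (F * δ) ^ 2) (B' := C / δ * D ^ 2) (by positivity)
      (by positivity)
      (fun a => sum_le_card s (fun c => a ∈ A c) (fun c hc => by simp [e, hc])
        (fun c hc => by
          simp only [e]
          rw [ic_of_mem hc, one_mul, norm_mul, co_of_norm (hAp c a hc).1, ← Complex.ofReal_sub,
            Complex.norm_real]
          exact mul_le_mul (hF a) ((norm_le_pi_norm (a - p c) i).trans (hAp c a hc).2)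
            (norm_nonneg _) hF0) (hcA a))
      (fun b => sum_le_card s (fun c => ‖b‖ = 1 ∧ |p c ⬝ᵥ b| ≤ 4 * δ)
        (fun c hc => by simp only [w]; rw [ic_of_notMem (show b ∉ N c from hc), zero_mul])
        (fun c hc => by
          simp only [w]
          rw [ic_of_mem (show b ∈ N c from hc), one_mul, norm_mul]
          exact (mul_le_of_le_one_right (norm_nonneg _) (norm_co_le i b)).trans (hD b)) (hcN b))
      (by
        have : 0 ≤ F ^ 2 * D ^ 2 * C * δ := by positivity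
        calc _ = F ^ 2 * D ^ 2 * (C / δ * δ ^ 2) := by ring
          _ ≤ _ := by rw [hCδ]; linarith)
  have B0 : ‖∑ c ∈ s, P.E (e₀ c) * G.E (w₀ c)‖ ≤ ε / 4 :=
    herz_le P G s he₀ hw₀ (B := 1 * F ^ 2) (B' := C / δ * (D * (4 * δ)) ^ 2) (by positivity)
      (by positivity)
      (fun a => sum_le_card s (fun c => a ∈ A c) (fun c hc => by simp [e₀, hc])
        (fun c hc => by simp only [e₀]; rw [ic_of_mem hc, one_mul]; exact hF a) (hcA a))
      (fun b => sum_le_card s (fun c => ‖b‖ = 1 ∧ |p c ⬝ᵥ b| ≤ 4 * δ)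
        (fun c hc => by simp only [w₀, w]; simp [ic_of_notMem (show b ∉ N c from hc)])
        (fun c hc => by
          have : w₀ c b = g b * (p c ⬝ᵥ b : ℝ) := by
            simp only [w₀, w, ic_of_mem (show b ∈ N c from hc), co_of_norm hc.1, dotProduct,
              Fin.sum_univ_three]
            push_cast
            ring
          rw [this, norm_mul, Complex.norm_real]
          exact mul_le_mul (hD b) hc.2 (norm_nonneg _) hD0) (hcN b))
      (by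
        calc _ = 16 * F ^ 2 * D ^ 2 * (C / δ * δ ^ 2) := by ring
          _ ≤ _ := by rw [hCδ]; linarith)
  rw [E2, Fin.sum_univ_three]
  refine (norm_add_le _ _).trans ((add_le_add_left (norm_add₃_le) _).trans ?_)
  linarith [B1 0, B1 1, B1 2]

end Crest.Agent.N111
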